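import Crest.Agent.X326.M4.Alg
import Crest.Agent.X326.TC.Zip
import Crest.Agent.X326.TC.NatLin

/-!
Row 326 (S0503), part M4: the cost of the convolution algorithm, and `MainM4`.
-/

set_option autoImplicit false

namespace Crest.Agent.X326.M4

open Crest.Agent.Lib.PT

namespace Mn

variable {α : Type} [PTCode α] {D : α → Prop} {T : α → ℕ}

/-! ### record operations -/

theorem lin_negM : Lin (fun q : ℕ × ℕ => negM q.1 q.2) := by
  unfold negM; fun_prop

theorem lin_subM : Lin (fun q : ℕ × ℕ × ℕ => subM q.1 q.2.1 q.2.2) := by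
  unfold subM; fun_prop

theorem lin_redM : Lin (fun q : Un × ℕ => redM q.1.val q.2) := by
  have hk : TU (fun _ : Un × ℕ => True) (fun _ => 0) (fun q => q.1.val) := TU.val TC.id.fst
  have hx : Lin (fun q : Un × ℕ => q.2) := TC.id.snd
  have hM := (TC.natTwoPow hk).natSub (TC.const 1)
  have hs := ((hx.natModTwoPow hk).natAdd ((hx.natDivTwoPow hk).natModTwoPow hk)).natAdd
    ((hx.natDivTwoPow hk).natDivTwoPow hk)
  have hs' := (hs.natModTwoPow hk).natAdd (hs.natDivTwoPow hk)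
  exact TC.ite (TP.natLt hs' hM) hs' (hs'.natSub hM)

theorem tc_recNeg {M : α → ℕ} {a : α → List ℕ} (hM : TC D T M) (ha : TC D T a)
    (hb : Bud D T (fun x => (a x).length * sz (M x))) : TC D T (fun x => recNeg (M x) (a x)) :=
  TC.mapCtx_lin (f := negM) lin_negM hM ha hb

theorem tc_recRot0 {M e : α → ℕ} {a : α → List ℕ} (hM : TC D T M) (he : TU D T e)
    (ha : TC D T a) (hb : Bud D T (fun x => (a x).length * sz (M x))) :
    TC D T (fun x => recRot0 (M x) (e x) (a x)) :=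
  (tc_recNeg hM (TC.drop ((TU.length ha).sub he) ha)
    (hb.mono (fun x _ => Nat.mul_le_mul_right _ (by simp)))).append
    (TC.take ((TU.length ha).sub he) ha)

theorem tc_recRot {M e : α → ℕ} {a : α → List ℕ} (hM : TC D T M) (he : TU D T e)
    (ha : TC D T a) (hb : Bud D T (fun x => (a x).length * sz (M x))) :
    TC D T (fun x => recRot (M x) (e x) (a x)) :=
  TC.ite (TP.ltU he (TU.length ha)) (tc_recRot0 hM he ha hb)
    (tc_recNeg hM (tc_recRot0 hM (he.sub (TU.length ha)) ha hb)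
      (hb.mono (fun x _ => Nat.mul_le_mul_right _ (by simp [recRot0, recNeg]))))

theorem tc_rot : TC (fun q : (ℕ × ℕ) × List ℕ => q.1.2 ≤ 2 * q.2.length)
    (fun q => q.2.length * sz q.1.1) (fun q => recRot q.1.1 q.1.2 q.2) :=
  tc_recRot TC.id.fst.fst
    (TU.ofNat TC.id.fst.snd (((TU.length TC.id.snd).bud.const_mul 2).mono (fun _ h => h)))
    TC.id.snd Bud.self

theorem tc_shift : TC (fun _ : (Un × Un) × List ℕ => True) (fun q => q.2.length * sz q.1)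
    (fun q => recShift q.1.1.val q.1.2.val q.2) := by
  have h : Lin (fun q : (Un × Un) × ℕ => redM q.1.1.val (q.2 * 2 ^ q.1.2.val)) :=
    TC.comp_lin (f := fun q : (Un × Un) × ℕ => (q.1.1, q.2 * 2 ^ q.1.2.val)) lin_redM
      (TC.id.fst.fst.prodMk (TC.id.snd.natMulTwoPow (TU.val TC.id.fst.snd)))
  exact TC.mapCtx_lin (f := fun (c : Un × Un) (a : ℕ) => redM c.1.val (a * 2 ^ c.2.val)) h
    TC.id.fst TC.id.snd Bud.self

theorem tc_recFold {p r : α → ℕ} {c : α → List ℕ} (hp : TU D T p) (hr : TU D T r)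
    (hc : TC D T c) (hb : Bud D T (fun x => r x * p x)) :
    TC D T (fun x => recFold (p x) (r x) (c x)) := by
  have h0 : TC D T (fun x => c x ++ List.replicate (2 * r x) 0) :=
    hc.append (TC.replicate_const 0 (hr.const_mul 2))
  have hm : ∀ l : α → List ℕ, TC D T l → TC D T (fun x => ((l x).take (r x)).map (redM (p x))) :=
    fun l hl => TC.mapCtx_lin (f := fun (c : Un) (a : ℕ) => redM c.val a)
      (c := fun x => Un.mk (p x)) lin_redM hp (TC.take hr hl)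
      (hb.mono (fun x _ => by
        rw [sz_un]
        exact Nat.mul_le_mul_right _ (by simp)))
  refine TC.zipWithCtx_lin (f := subM) lin_subM ((TC.natTwoPow hp).natSub (TC.const 1))
    (hm _ h0) (hm _ (TC.drop hr h0)) (hb.mono (fun x _ => Nat.mul_le_mul (by simp) ?_))
  exact sz_le_of_lt_two_pow (Nat.sub_lt (by positivity) one_pos)

theorem tc_mul {conv : List ℕ → List ℕ → List ℕ} {Tc : List ℕ × List ℕ → ℕ}
    (h : TC (fun _ => True) Tc (fun x : List ℕ × List ℕ => conv x.1 x.2)) :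
    TC (fun _ : Un × List ℕ × List ℕ => True) (fun q => Tc q.2 + q.2.1.length * q.1.val)
      (fun q => recMul conv q.1.val q.2.1 q.2.2) :=
  tc_recFold (TU.val TC.id.fst) (TU.length TC.id.snd.fst)
    (h.comp TC.id.snd (fun _ _ => trivial) (Bud.self.mono (fun _ _ => Nat.le_add_right _ _)))
    (Bud.self.mono (fun _ _ => Nat.le_add_left _ _))

/-! ### parameters and sizes -/

theorem tc_tup {p : α → Par} (hp : TC D T p) : TC D T (fun x => (p x).tup) :=
  hp.recode (fun _ _ => rfl)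

theorem tu_k {p : α → Par} (hp : TC D T p) : TU D T (fun x => (p x).k) := (tc_tup hp).fst

theorem tu_d {p : α → Par} (hp : TC D T p) : TU D T (fun x => (p x).d) := (tc_tup hp).snd.fst

theorem tu_P {p : α → Par} (hp : TC D T p) : TU D T (fun x => (p x).P) :=
  (tc_tup hp).snd.snd.snd

/-- the polynomial that bounds all the parameters -/
def U (p : Par) : ℕ := (p.lr + 1) ^ 4

theorem le_U {p : Par} (hp : p.Ok) :
    1 ≤ U p ∧ p.lr ≤ U p ∧ p.k ≤ U p ∧ p.d ≤ U p ∧ p.P ≤ U p ∧ p.k * p.d ≤ U p := by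
  have h1 : p.lr + 1 ≤ U p := Nat.le_self_pow (by norm_num) _
  have h2 := hp.k_le
  have h3 := hp.kd_le
  have h4 : p.P ≤ U p := hp.P_le
  have h5 : p.d ≤ p.k * p.d := Nat.le_mul_of_pos_left _ hp.k_pos
  omega

theorem sz_par_le {p : Par} (hp : p.Ok) : sz p ≤ 10 * U p := by
  have := le_U hp
  rw [sz_par]
  omega

theorem pow_U_le (c k : ℕ) : ∃ C, ∀ p : Par, (c * U p) ^ k ≤ C * p.r := by
  refine ⟨c ^ k * ((4 * k).factorial * 2 ^ (4 * k)), fun p => ?_⟩
  rw [mul_pow, U, ← pow_mul, mul_assoc]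
  exact Nat.mul_le_mul_left _ (pow_le_factorial_mul_two_pow p.lr (4 * k))

theorem N_mul_r_le {p : Par} (hp : p.Ok) : p.N * p.r ≤ p.vol :=
  Nat.le_mul_of_pos_right _ (by have := hp.P_ge; omega)

theorem r_le_vol {p : Par} (hp : p.Ok) : p.r ≤ p.vol :=
  (Nat.le_mul_of_pos_left _ p.N_pos).trans (N_mul_r_le hp)

theorem N_mul_P_le (p : Par) : p.N * p.P ≤ p.vol :=
  Nat.mul_le_mul_right _ (Nat.le_mul_of_pos_right _ p.r_pos)

theorem P_le_vol (p : Par) : p.P ≤ p.vol :=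
  (Nat.le_mul_of_pos_left _ p.N_pos).trans (N_mul_P_le p)

theorem sz_M_le (p : Par) : sz p.M ≤ p.P :=
  sz_le_of_lt_two_pow (Nat.sub_lt (by positivity) one_pos)

theorem sz_rec_le {p : Par} {x : List ℕ} (h : WF p.r p.M x) : sz x ≤ p.r * (2 * p.P + 1) := by
  rw [← h.1]
  exact sz_list_le (fun c hc => (sz_nat_mono (h.2 c hc).le).trans (sz_M_le p))

theorem sz_arr_le {p : Par} (hp : p.Ok) {l : Ar} (h : p.WF l) : sz l ≤ 7 * p.vol := by
  have h1 := sz_list_le (fun x hx => sz_rec_le (h.2 x hx))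
  rw [h.1] at h1
  have h2 := N_mul_r_le hp
  have h3 : p.N ≤ p.N * p.r := Nat.le_mul_of_pos_right _ p.r_pos
  have e : p.N * (2 * (p.r * (2 * p.P + 1)) + 1) = 4 * p.vol + 2 * (p.N * p.r) + p.N := by
    unfold Par.vol; ring
  omega

/-! ### twiddle passes -/

theorem tc_twist {E : Par → ℕ → ℕ → ℕ}
    (hE : PTF (fun q : (Par × Un) × ℕ => E q.1.1 q.1.2.val q.2))
    (hle : ∀ p ρ n, E p ρ n ≤ 2 * p.r) :
    TC (fun x : (Par × Un) × Ar => x.1.1.Ok ∧ x.1.2.val < x.1.1.k ∧ x.1.1.WF x.2)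
      (fun x => x.1.1.vol) (fun x => twist x.1.1.M (E x.1.1 x.1.2.val) x.2) := by
  have he : PTF (fun q : (Par × Un) × ℕ => (q.1.1.M, E q.1.1 q.1.2.val q.2)) :=
    PTF.prodMk (ptf_M (PTF.comp PTF.fst PTF.fst)) hE
  refine (TC.idxOp (op := fun (c : ℕ × ℕ) (a : List ℕ) => recRot c.1 c.2 a)
    (e := fun (c : Par × Un) (n : ℕ) => (c.1.M, E c.1 c.2.val n)) tc_rot he TC.id.fst TC.id.snd
    (fun x => 24 * U x.1.1) (fun x => x.1.1.r * x.1.1.P) 0 (fun x hx => ?_) (fun k => ?_)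
    (fun x hx j hj => ?_) (Bud.self.mono (fun x hx => ?_))).of_eq (fun x => ?_)
  · have h1 := sz_par_le hx.1
    have h2 := le_U hx.1
    have h3 := hx.2.1
    rw [hx.2.2.1, Par.N, Nat.size_pow, sz_prod, sz_un]
    omega
  · obtain ⟨C, hC⟩ := pow_U_le 25 k
    refine Bud.of_le_mul C (fun x hx => ?_)
    have h2 := le_U hx.1
    have h3 : (24 * U x.1.1 + 1) ^ k ≤ C * x.1.1.r :=
      (Nat.pow_le_pow_left (by omega) k).trans (hC x.1.1)
    rw [hx.2.2.1]
    calc x.1.1.N * (24 * U x.1.1 + 1) ^ k ≤ x.1.1.N * (C * x.1.1.r) := Nat.mul_le_mul_left _ h3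
      _ = C * (x.1.1.N * x.1.1.r) := by ring
      _ ≤ C * x.1.1.vol := Nat.mul_le_mul_left _ (N_mul_r_le hx.1)
  · have hw := (hx.2.2.2 _ (List.getElem_mem hj)).1
    simp only [hw, zero_mul, add_zero]
    exact ⟨hle _ _ _, Nat.mul_le_mul_left _ (sz_M_le _)⟩
  · rw [hx.2.2.1, Par.vol, mul_assoc]
  · rw [twist, mapIdx_eq_zipWith, List.zipWith_map_left]

/-! ### rounds -/

section rounds

variable {ok : Par → Prop} {TL : Par → ℕ} {layer : Par × Un × Ar → Ar}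

theorem tu_rho : TU (fun q : Par × Ar × ℕ => (ok q.1 ∧ q.1.Ok) ∧ q.1.WF q.2.1 ∧ q.2.2 < q.1.k)
    (fun q => TL q.1 + q.1.vol) (fun q => q.2.2) :=
  TU.ofNat TC.id.snd.snd ((tu_k TC.id.fst).bud.mono (fun _ h => h.2.2.le))

theorem tc_fStep
    (hl : TC (fun x : Par × Un × Ar => ok x.1 ∧ x.2.1.val < x.1.k ∧ x.1.WF x.2.2)
      (fun x => TL x.1) layer) (hL : ∀ p, ok p → LayOK layer p) :
    TC (fun q : Par × Ar × ℕ => (ok q.1 ∧ q.1.Ok) ∧ q.1.WF q.2.1 ∧ q.2.2 < q.1.k)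
      (fun q => TL q.1 + q.1.vol) (fun q => fStep layer q.1 q.2.1 q.2.2) := by
  have h1 := hl.comp (f := fun q : Par × Ar × ℕ => (q.1, Un.mk (q.1.k - 1 - q.2.2), q.2.1))
    (TC.id.fst.prodMk (TC.prodMk (((tu_k TC.id.fst).sub (TU.const 1)).sub
      (tu_rho (ok := ok) (TL := TL))) TC.id.snd.fst))
    (fun q h => ⟨h.1.1, by have := h.2.2; dsimp only; omega, h.2.1⟩)
    (Bud.self.mono (fun _ _ => Nat.le_add_right _ _))
  exact (tc_twist (E := twE) ptf₂_twE twE_le).comp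
    (f := fun q : Par × Ar × ℕ => ((q.1, Un.mk q.2.2),
      layer (q.1, Un.mk (q.1.k - 1 - q.2.2), q.2.1)))
    ((TC.id.fst.prodMk tu_rho).prodMk h1)
    (fun q h => ⟨h.1.2, h.2.2, (hL _ h.1.1 _ _ (by have := h.2.2; omega) h.2.1).1⟩)
    (Bud.self.mono (fun _ _ => Nat.le_add_left _ _))

theorem tc_iStep
    (hl : TC (fun x : Par × Un × Ar => ok x.1 ∧ x.2.1.val < x.1.k ∧ x.1.WF x.2.2)
      (fun x => TL x.1) layer) :
    TC (fun q : Par × Ar × ℕ => (ok q.1 ∧ q.1.Ok) ∧ q.1.WF q.2.1 ∧ q.2.2 < q.1.k)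
      (fun q => TL q.1 + q.1.vol) (fun q => iStep layer q.1 q.2.1 q.2.2) := by
  have h1 := (tc_twist (E := itwE) ptf₂_itwE itwE_le).comp
    (f := fun q : Par × Ar × ℕ => ((q.1, Un.mk q.2.2), q.2.1))
    ((TC.id.fst.prodMk (tu_rho (ok := ok) (TL := TL))).prodMk TC.id.snd.fst)
    (fun q h => ⟨h.1.2, h.2.2, h.2.1⟩) (Bud.self.mono (fun _ _ => Nat.le_add_left _ _))
  exact hl.comp (f := fun q : Par × Ar × ℕ => (q.1, Un.mk (q.1.k - 1 - q.2.2),
      twist q.1.M (itwE q.1 q.2.2) q.2.1))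
    (TC.id.fst.prodMk (TC.prodMk (((tu_k TC.id.fst).sub (TU.const 1)).sub tu_rho) h1))
    (fun q h => ⟨h.1.1, by have := h.2.2; dsimp only; omega, WFA.twist h.2.1 _⟩)
    (Bud.self.mono (fun _ _ => Nat.le_add_right _ _))

theorem foldl_ctx (step : Par → Ar → ℕ → Ar) (p : Par) (l : Ar) (L : List ℕ) :
    L.foldl (fun (s : Par × Ar) ρ => (s.1, step s.1 s.2 ρ)) (p, l) = (p, L.foldl (step p) l) := by
  induction L generalizing l with
  | nil => rfl
  | cons ρ L ih => simp [ih]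

/-- a sequence of at most `k` rounds -/
theorem tc_rounds {step : Par → Ar → ℕ → Ar} {S : Par → ℕ}
    (hs : TC (fun q : Par × Ar × ℕ => (ok q.1 ∧ q.1.Ok) ∧ q.1.WF q.2.1 ∧ q.2.2 < q.1.k)
      (fun q => S q.1 + q.1.vol) (fun q => step q.1 q.2.1 q.2.2))
    (hw : ∀ p l ρ, ok p → p.Ok → p.WF l → p.WF (step p l ρ))
    {p : α → Par} {l : α → Ar} {L : α → List ℕ} (hp : TC D T p) (hl : TC D T l) (hL : TC D T L)
    (h : ∀ x, D x → (ok (p x) ∧ (p x).Ok) ∧ (p x).WF (l x))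
    (h' : ∀ x, (L x).length ≤ (p x).k ∧ ∀ ρ ∈ L x, ρ < (p x).k)
    (hb : Bud D T (fun x => (p x).k * (S (p x) + (p x).vol))) :
    TC D T (fun x => (L x).foldl (step (p x)) (l x)) := by
  obtain ⟨C, hC⟩ := pow_U_le 21 1
  have h1 : TC (fun q : (Par × Ar) × ℕ => (ok q.1.1 ∧ q.1.1.Ok) ∧ q.1.1.WF q.1.2 ∧ q.2 < q.1.1.k)
      (fun q => S q.1.1 + q.1.1.vol) (fun q => (q.1.1, step q.1.1 q.1.2 q.2)) :=
    TC.id.fst.fst.prodMk (hs.comp (f := fun q : (Par × Ar) × ℕ => (q.1.1, q.1.2, q.2))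
      (TC.id.fst.fst.prodMk (TC.id.fst.snd.prodMk TC.id.snd)) (fun _ h => h) Bud.self)
  refine (TC.foldl_inv (f := fun (s : Par × Ar) ρ => (s.1, step s.1 s.2 ρ)) h1 (hp.prodMk hl) hL
    (fun x s => s.1 = p x ∧ (p x).WF s.2) (fun x _ => (C + 8) * (S (p x) + (p x).vol))
    (fun x hx => ⟨rfl, (h x hx).2⟩) (fun x hx s ρ hρ hs => ?_)
    ((hb.const_mul (C + 8)).mono (fun x _ => ?_))).snd.of_eq (fun x => by rw [foldl_ctx])
  · obtain ⟨q, a⟩ := s
    obtain ⟨rfl, ha⟩ := hs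
    have hx' := (h x hx).1
    refine ⟨⟨hx', ha, (h' x).2 ρ hρ⟩, ?_, rfl, hw _ _ _ hx'.1 hx'.2 ha⟩
    have h2 := sz_par_le hx'.2
    have h3 := sz_arr_le hx'.2 ha
    have h4 := hC (p x)
    have h5 := Nat.mul_le_mul_left C (r_le_vol hx'.2)
    have h6 := le_U hx'.2
    have e : (C + 8) * (S (p x) + (p x).vol) =
        S (p x) + (C * (p x).vol + 8 * (p x).vol) + (C + 7) * S (p x) := by ring
    rw [pow_one] at h4
    simp only [sz_prod] at h3 ⊢
    omega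
  · rw [List.map_const', List.sum_replicate, smul_eq_mul, mul_left_comm]
    exact Nat.mul_le_mul_left _ (Nat.mul_le_mul_right _ (h' x).1)

theorem tc_rangeK {S : Par → ℕ} {p : α → Par} (hp : TC D T p) (h : ∀ x, D x → (p x).Ok)
    (hb : Bud D T (fun x => (p x).k * (S (p x) + (p x).vol))) :
    TC D T (fun x => List.range (p x).k) :=
  TC.range (tu_k hp) (hb.mono (fun x hx => Nat.mul_le_mul_left _ (by
    have h1 := size_le_self (p x).k
    have h2 : (p x).k ≤ (p x).k * (p x).d := Nat.le_mul_of_pos_right _ (h x hx).d_pos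
    have h3 := (h x hx).kd_le
    have h4 := P_le_vol (p x)
    omega)))

end rounds

end Mn

open Mn

/-- **M4.** -/
theorem mainM4 : MainM4 := by
  rintro ok TL μ ⟨layer, hl, hL⟩ ⟨conv, Tc, hconv, hc, hμ⟩
  have hL' : ∀ p, ok p → LayOK layer p := fun p hp β l hβ h => hL p β l hp hβ h
  refine ⟨fun x => cvL layer conv x.1 x.2.1 x.2.2, ?_, fun p la lb hp ha hb =>
    ⟨wf_cvL hconv hp.2 (hL' p hp.1) ha hb, coef_cvL hconv hp.2 (hL' p hp.1) ha hb⟩⟩
  set D : Par × Ar × Ar → Prop := fun x => (ok x.1 ∧ x.1.Ok) ∧ x.1.WF x.2.1 ∧ x.1.WF x.2.2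
  set T : Par × Ar × Ar → ℕ := fun x => x.1.k * (TL x.1 + x.1.vol) + x.1.N * μ x.1.r x.1.P
  have hp : TC D T (fun x => x.1) := TC.id.fst
  have hb : Bud D T (fun x => x.1.k * (TL x.1 + x.1.vol)) :=
    Bud.self.mono (fun _ _ => Nat.le_add_right _ _)
  have hμb : Bud D T (fun x => x.1.N * μ x.1.r x.1.P) :=
    Bud.self.mono (fun _ _ => Nat.le_add_left _ _)
  have hv : Bud D T (fun x => x.1.vol) := hb.mono (fun x hx =>
    (Nat.le_add_left _ _).trans (Nat.le_mul_of_pos_left _ hx.1.2.k_pos))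
  have hr := tc_rangeK hp (fun x hx => hx.1.2) hb
  have hf : ∀ l : Par × Ar × Ar → Ar, TC D T l → (∀ x, D x → x.1.WF (l x)) →
      TC D T (fun x => fwdL layer x.1 (l x)) := fun l h1 h2 =>
    tc_rounds (tc_fStep hl hL') (fun p l ρ h h' hw => wf_fStep h' (hL' p h) hw ρ) hp h1 hr
      (fun x hx => ⟨hx.1, h2 x hx⟩) (fun x => by simp) hb
  have wa : ∀ x, D x → x.1.WF (fwdL layer x.1 x.2.1) := fun x hx =>
    wf_fwdL hx.1.2 (hL' _ hx.1.1) hx.2.1
  have wb : ∀ x, D x → x.1.WF (fwdL layer x.1 x.2.2) := fun x hx =>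
    wf_fwdL hx.1.2 (hL' _ hx.1.1) hx.2.2
  have hm : TC D T (fun x => mulL conv x.1 (fwdL layer x.1 x.2.1) (fwdL layer x.1 x.2.2)) := by
    refine TC.zipWithCtx_le (f := fun (c : Un) (a b : List ℕ) => recMul conv c.val a b)
      (c := fun x : Par × Ar × Ar => Un.mk x.1.P) (tc_mul hc) (tu_P hp)
      (hf _ TC.id.snd.fst (fun x hx => hx.2.1)) (hf _ TC.id.snd.snd (fun x hx => hx.2.2))
      (fun x => μ x.1.r x.1.P + x.1.r * x.1.P) 0 (fun x hx a ha b hb => ⟨trivial, ?_⟩)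
      ((hμb.add hv).mono (fun x hx => ?_)) (hv.mono (fun x hx => ?_))
    · have h1 := (wa x hx).2 a ha
      have h2 := (wb x hx).2 b hb
      have hlt : ∀ c, c < x.1.M → c < 2 ^ x.1.P := fun c h => h.trans_le (Nat.sub_le _ _)
      have := hμ x.1.r x.1.P a b h1.1.le h2.1.le (fun c hc => hlt c (h1.2 c hc))
        (fun c hc => hlt c (h2.2 c hc))
      simp only [h1.1, zero_mul, add_zero]
      omega
    · rw [(wa x hx).1, mul_add, Par.vol, mul_assoc]
    · rw [(wa x hx).1, sz_un]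
      exact N_mul_P_le _
  have wm : ∀ x, D x → x.1.WF (mulL conv x.1 (fwdL layer x.1 x.2.1) (fwdL layer x.1 x.2.2)) :=
    fun x hx => wf_mulL hconv hx.1.2 (wa x hx) (wb x hx)
  have hi : TC D T (fun x => invL layer x.1
      (mulL conv x.1 (fwdL layer x.1 x.2.1) (fwdL layer x.1 x.2.2))) :=
    tc_rounds (tc_iStep hl) (fun p l ρ h h' hw => wf_iStep h' (hL' p h) hw ρ) hp hm hr.reverse
      (fun x hx => ⟨hx.1, wm x hx⟩) (fun x => by simp) hb
  have wi := fun x (hx : D x) => wf_invL hx.1.2 (hL' _ hx.1.1) (wm x hx)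
  have hkd : TU D T (fun x => x.1.k * x.1.d) :=
    (tu_k hp).mul (tu_d hp) ((tu_P hp).bud.mono (fun x hx => hx.1.2.kd_le))
  have hsz : ∀ x, D x → sz (Un.mk x.1.P, Un.mk (x.1.P - x.1.k * x.1.d)) ≤ 4 * x.1.P := by
    intro x hx
    have := hx.1.2.P_ge
    simp only [sz_prod, sz_un]
    omega
  refine TC.mapCtx_le (f := fun (c : Un × Un) (a : List ℕ) => recShift c.1.val c.2.val a)
    (c := fun x : Par × Ar × Ar => (Un.mk x.1.P, Un.mk (x.1.P - x.1.k * x.1.d))) tc_shift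
    (TC.prodMk (tu_P hp) ((tu_P hp).sub hkd)) hi (fun x => x.1.r * (4 * x.1.P)) 0
    (fun x hx a ha => ⟨trivial, ?_⟩) ((hv.const_mul 4).mono (fun x hx => ?_))
    ((hv.const_mul 4).mono (fun x hx => ?_))
  · simp only [((wi x hx).2 a ha).1, zero_mul, add_zero]
    exact Nat.mul_le_mul_left _ (hsz x hx)
  · rw [(wi x hx).1, Par.vol]
    exact le_of_eq (by ring)
  · rw [(wi x hx).1]
    have h1 := Nat.mul_le_mul_left x.1.N (hsz x hx)
    have h2 := N_mul_P_le x.1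
    rw [mul_left_comm] at h1
    omega

end Crest.Agent.X326.M4
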