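import Mathlib

/-!
Row 326 (S0503), part M4: the algebra of the `d`-dimensional radix-2 transform.

Arrays are functions on flat indices `x : ℕ` (only `x < 2 ^ (k * d)` matters), `dig k i x` is the
digit number `i` of `x` in base `t = 2 ^ k` (axis `i`, axis `0` is the fastest).

* `Hbit j`      : the butterfly `(a, b) ↦ (a + b, a - b)` on bit `j` of the index;
* `Hlay k d β`  : the butterfly on bit `β` of every one of the `d` digits;
* `fwd w k d`   : `k` rounds "layer, then multiply entry `x` by `w ^ twd k d ρ x`";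
* `inv w k d`   : `k` rounds "multiply entry `x` by `w ^ itwd k d ρ x`, then layer";
* `inv_fwd_mul` : `inv (fwd a * fwd b) = 2 ^ (k * d) * cconv a b` when `w ^ (2 ^ (k - 1)) = -1`.
-/

set_option autoImplicit false

namespace Crest.Agent.X326.M4

open Finset

/-! ### digits -/

/-- digit number `i` of `x` in base `2 ^ k` -/
def dig (k i x : ℕ) : ℕ := x / 2 ^ (k * i) % 2 ^ k

theorem dig_lt (k i x : ℕ) : dig k i x < 2 ^ k := Nat.mod_lt _ (by positivity)

theorem testBit_dig (k i x j : ℕ) :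
    (dig k i x).testBit j = (decide (j < k) && x.testBit (k * i + j)) := by
  unfold dig
  rw [Nat.testBit_mod_two_pow, Nat.testBit_div_two_pow, Nat.add_comm j]

theorem dig_xor_same {k β : ℕ} (hβ : β < k) (i x : ℕ) :
    dig k i (x ^^^ 2 ^ (k * i + β)) = dig k i x ^^^ 2 ^ β := by
  apply Nat.eq_of_testBit_eq
  intro j
  rw [Nat.testBit_xor, testBit_dig, testBit_dig, Nat.testBit_xor, Nat.testBit_two_pow,
    Nat.testBit_two_pow]
  by_cases hj : j < k
  · by_cases hb : β = j
    · simp [hj, hb]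
    · simp [hj, hb]
  · have : β ≠ j := by omega
    simp [hj, this]

theorem dig_xor_ne {k β i i' : ℕ} (hβ : β < k) (h : i' ≠ i) (x : ℕ) :
    dig k i' (x ^^^ 2 ^ (k * i + β)) = dig k i' x := by
  apply Nat.eq_of_testBit_eq
  intro j
  rw [testBit_dig, testBit_dig, Nat.testBit_xor, Nat.testBit_two_pow]
  by_cases hj : j < k
  · have : k * i + β ≠ k * i' + j := by
      intro e
      rcases lt_or_gt_of_ne h with h1 | h1
      · have : k * (i' + 1) ≤ k * i := Nat.mul_le_mul_left k h1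
        rw [Nat.mul_succ] at this
        omega
      · have : k * (i + 1) ≤ k * i' := Nat.mul_le_mul_left k h1
        rw [Nat.mul_succ] at this
        omega
    simp [this]
  · simp [hj]

theorem testBit_dig_of_lt {k β : ℕ} (hβ : β < k) (i x : ℕ) :
    (dig k i x).testBit β = x.testBit (k * i + β) := by
  rw [testBit_dig]; simp [hβ]

/-- numbers below `2 ^ (k * d)` are determined by their first `d` digits -/
theorem eq_of_dig_eq {k d x y : ℕ} (hx : x < 2 ^ (k * d)) (hy : y < 2 ^ (k * d))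
    (h : ∀ i < d, dig k i x = dig k i y) : x = y := by
  apply Nat.eq_of_testBit_eq
  intro j
  by_cases hj : j < k * d
  · have hk : 0 < k := Nat.pos_of_ne_zero (by rintro rfl; simp at hj)
    have h1 : j / k < d := by
      rw [Nat.div_lt_iff_lt_mul hk, Nat.mul_comm]; exact hj
    have h2 : j % k < k := Nat.mod_lt _ hk
    have h3 := congrArg (fun z => z.testBit (j % k)) (h _ h1)
    simp only [testBit_dig_of_lt h2, Nat.div_add_mod] at h3
    exact h3
  · have h1 : 2 ^ (k * d) ≤ 2 ^ j := Nat.pow_le_pow_right (by norm_num) (by omega)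
    rw [Nat.testBit_eq_false_of_lt (lt_of_lt_of_le hx h1),
      Nat.testBit_eq_false_of_lt (lt_of_lt_of_le hy h1)]

theorem xor_two_pow_lt {n j x : ℕ} (hj : j < n) (hx : x < 2 ^ n) : x ^^^ 2 ^ j < 2 ^ n :=
  Nat.xor_lt_two_pow hx (Nat.pow_lt_pow_right (by norm_num) hj)

theorem pos_lt {k d i β : ℕ} (hi : i < d) (hβ : β < k) : k * i + β < k * d := by
  have : k * (i + 1) ≤ k * d := Nat.mul_le_mul_left k hi
  rw [Nat.mul_succ] at this
  omega

/-- the number with the digits `c 0, …, c (d - 1)` -/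
def ofDigs (k : ℕ) (c : ℕ → ℕ) : ℕ → ℕ
  | 0 => 0
  | d + 1 => ofDigs k c d + 2 ^ (k * d) * c d

theorem ofDigs_lt {k : ℕ} {c : ℕ → ℕ} {d : ℕ} (hc : ∀ i < d, c i < 2 ^ k) :
    ofDigs k c d < 2 ^ (k * d) := by
  induction d with
  | zero => simp [ofDigs]
  | succ d ih =>
    have h1 := ih (fun i hi => hc i (by omega))
    have h2 : c d + 1 ≤ 2 ^ k := hc d (by omega)
    have h3 : 2 ^ (k * d) * (c d + 1) ≤ 2 ^ (k * d) * 2 ^ k := Nat.mul_le_mul_left _ h2
    rw [ofDigs, Nat.mul_succ, pow_add]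
    rw [Nat.mul_add] at h3
    omega

theorem dig_ofDigs {k : ℕ} {c : ℕ → ℕ} {d : ℕ} (hc : ∀ i < d, c i < 2 ^ k) {i : ℕ} (hi : i < d) :
    dig k i (ofDigs k c d) = c i := by
  induction d with
  | zero => omega
  | succ d ih =>
    have hlt := ofDigs_lt (k := k) (c := c) (d := d) (fun i hi => hc i (by omega))
    rw [ofDigs]
    rcases Nat.lt_succ_iff_lt_or_eq.1 hi with h | rfl
    · rw [← ih (fun i hi => hc i (by omega)) h]
      obtain ⟨e, rfl⟩ : ∃ e, d = i + 1 + e := ⟨d - (i + 1), by omega⟩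
      unfold dig
      have : 2 ^ (k * (i + 1 + e)) * c (i + 1 + e) =
          2 ^ (k * i) * (2 ^ k * (2 ^ (k * e) * c (i + 1 + e))) := by ring
      rw [this, Nat.add_mul_div_left _ _ (by positivity), Nat.add_mul_mod_self_left]
    · unfold dig
      rw [Nat.add_mul_div_left _ _ (by positivity), Nat.div_eq_of_lt hlt, zero_add,
        Nat.mod_eq_of_lt (hc i (by omega))]

/-- digitwise sum modulo `2 ^ k` of the first `d` digits -/
def dadd (k d y z : ℕ) : ℕ := ofDigs k (fun i => (dig k i y + dig k i z) % 2 ^ k) d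

theorem dadd_lt (k d y z : ℕ) : dadd k d y z < 2 ^ (k * d) :=
  ofDigs_lt (fun _ _ => Nat.mod_lt _ (by positivity))

theorem dig_dadd {k d i : ℕ} (hi : i < d) (y z : ℕ) :
    dig k i (dadd k d y z) = (dig k i y + dig k i z) % 2 ^ k :=
  dig_ofDigs (c := fun i => (dig k i y + dig k i z) % 2 ^ k)
    (fun _ _ => Nat.mod_lt _ (by positivity)) hi

/-! ### butterflies -/

section Butterfly

variable {M N : Type*} [AddCommGroup M] [AddCommGroup N]

/-- the butterfly `(a, b) ↦ (a + b, a - b)` on bit `j` of the index -/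
def Hbit (j : ℕ) (a : ℕ → M) : ℕ → M := fun x =>
  if x.testBit j then a (x ^^^ 2 ^ j) - a x else a x + a (x ^^^ 2 ^ j)

/-- butterflies on a list of bits -/
def Hs (js : List ℕ) (a : ℕ → M) : ℕ → M := js.foldr Hbit a

/-- the bit positions of a layer: bit `β` of each of the `d` digits -/
def layBits (k d β : ℕ) : List ℕ := (List.range d).map (fun i => k * i + β)

/-- the butterfly on bit `β` of every digit -/
def Hlay (k d β : ℕ) (a : ℕ → M) : ℕ → M := Hs (layBits k d β) a

@[simp] theorem Hs_nil (a : ℕ → M) : Hs [] a = a := rfl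

@[simp] theorem Hs_cons (j : ℕ) (js : List ℕ) (a : ℕ → M) : Hs (j :: js) a = Hbit j (Hs js a) := rfl

theorem Hs_append (js js' : List ℕ) (a : ℕ → M) : Hs (js ++ js') a = Hs js (Hs js' a) := by
  simp [Hs, List.foldr_append]

theorem xor_xor_two_pow (x j : ℕ) : x ^^^ 2 ^ j ^^^ 2 ^ j = x := by
  rw [Nat.xor_assoc, Nat.xor_self, Nat.xor_zero]

theorem testBit_xor_self (x j : ℕ) : (x ^^^ 2 ^ j).testBit j = !x.testBit j := by
  rw [Nat.testBit_xor, Nat.testBit_two_pow_self]; simp

theorem testBit_xor_ne {j j' : ℕ} (h : j ≠ j') (x : ℕ) : (x ^^^ 2 ^ j).testBit j' = x.testBit j' := by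
  rw [Nat.testBit_xor, Nat.testBit_two_pow_of_ne h]; simp

theorem Hbit_Hbit (j : ℕ) (a : ℕ → M) : Hbit j (Hbit j a) = fun x => 2 • a x := by
  funext x
  simp only [Hbit, testBit_xor_self, xor_xor_two_pow]
  cases x.testBit j <;> simp <;> abel

theorem Hbit_comm (j j' : ℕ) (a : ℕ → M) : Hbit j (Hbit j' a) = Hbit j' (Hbit j a) := by
  by_cases h : j = j'
  · rw [h]
  · funext x
    have e : x ^^^ 2 ^ j' ^^^ 2 ^ j = x ^^^ 2 ^ j ^^^ 2 ^ j' := by
      rw [Nat.xor_assoc, Nat.xor_assoc, Nat.xor_comm (2 ^ j')]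
    simp only [Hbit, testBit_xor_ne h, testBit_xor_ne (Ne.symm h), e]
    cases x.testBit j <;> cases x.testBit j' <;> simp <;> abel

theorem Hs_Hbit (js : List ℕ) (j : ℕ) (a : ℕ → M) : Hs js (Hbit j a) = Hbit j (Hs js a) := by
  induction js with
  | nil => rfl
  | cons j' js ih => rw [Hs_cons, ih, Hbit_comm, Hs_cons]

theorem Hs_perm {js js' : List ℕ} (h : js.Perm js') (a : ℕ → M) : Hs js a = Hs js' a := by
  induction h with
  | nil => rfl
  | cons j _ ih => rw [Hs_cons, Hs_cons, ih]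
  | swap j j' js => rw [Hs_cons, Hs_cons, Hs_cons, Hs_cons, Hbit_comm]
  | trans _ _ ih1 ih2 => rw [ih1, ih2]

/-- butterflies commute with additive maps of the data -/
theorem Hbit_map (φ : M →+ N) (j : ℕ) (a : ℕ → M) :
    Hbit j (fun x => φ (a x)) = fun x => φ (Hbit j a x) := by
  funext x
  simp only [Hbit]
  split_ifs <;> simp

theorem Hs_map (φ : M →+ N) (js : List ℕ) (a : ℕ → M) :
    Hs js (fun x => φ (a x)) = fun x => φ (Hs js a x) := by
  induction js with
  | nil => rfl
  | cons j js ih => rw [Hs_cons, ih, Hbit_map, Hs_cons]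

theorem Hs_Hs (js : List ℕ) (a : ℕ → M) : Hs js (Hs js a) = fun x => 2 ^ js.length • a x := by
  induction js generalizing a with
  | nil => funext x; simp
  | cons j js ih =>
    rw [Hs_cons, Hs_cons, Hs_Hbit, Hbit_Hbit, ih]
    funext x
    rw [List.length_cons, pow_succ', mul_smul]

theorem Hlay_Hlay (k d β : ℕ) (a : ℕ → M) :
    Hlay k d β (Hlay k d β a) = fun x => 2 ^ d • a x := by
  unfold Hlay
  rw [Hs_Hs]
  simp [layBits]

/-- the butterflies only look at indices below `2 ^ n` -/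
theorem Hbit_congr {n j : ℕ} (hj : j < n) {a b : ℕ → M} (h : ∀ x < 2 ^ n, a x = b x) :
    ∀ x < 2 ^ n, Hbit j a x = Hbit j b x := by
  intro x hx
  simp only [Hbit, h x hx, h _ (xor_two_pow_lt hj hx)]

theorem Hs_congr {n : ℕ} {js : List ℕ} (hj : ∀ j ∈ js, j < n) {a b : ℕ → M}
    (h : ∀ x < 2 ^ n, a x = b x) : ∀ x < 2 ^ n, Hs js a x = Hs js b x := by
  induction js with
  | nil => exact h
  | cons j js ih =>
    exact Hbit_congr (hj j (by simp)) (ih (fun j' hj' => hj j' (by simp [hj'])))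

theorem layBits_lt {k d β : ℕ} (hβ : β < k) : ∀ j ∈ layBits k d β, j < k * d := by
  intro j hj
  simp only [layBits, List.mem_map, List.mem_range] at hj
  obtain ⟨i, hi, rfl⟩ := hj
  exact pos_lt hi hβ

theorem Hlay_congr {k d β : ℕ} (hβ : β < k) {a b : ℕ → M} (h : ∀ x < 2 ^ (k * d), a x = b x) :
    ∀ x < 2 ^ (k * d), Hlay k d β a x = Hlay k d β b x :=
  Hs_congr (layBits_lt hβ) h

end Butterfly

/-! ### the transform -/

section Transform

variable {A : Type*} [CommRing A]

/-- twiddle exponent of one digit `z` in round `ρ` (bit `β = k - 1 - ρ`) -/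
def tw (k ρ z : ℕ) : ℕ := if z.testBit (k - 1 - ρ) then z % 2 ^ (k - 1 - ρ) * 2 ^ ρ else 0

/-- twiddle exponent of the flat index `x` in round `ρ` -/
def twd (k d ρ x : ℕ) : ℕ := ∑ i ∈ range d, tw k ρ (dig k i x)

/-- inverse twiddle exponent of the flat index `x` in round `ρ` -/
def itwd (k d ρ x : ℕ) : ℕ := d * 2 ^ k - twd k d ρ x

/-- forward round number `ρ` -/
def fwdRound (w : A) (k d ρ : ℕ) (a : ℕ → A) : ℕ → A :=
  fun x => w ^ twd k d ρ x * Hlay k d (k - 1 - ρ) a x

/-- inverse round number `ρ` -/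
def invRound (w : A) (k d ρ : ℕ) (a : ℕ → A) : ℕ → A :=
  Hlay k d (k - 1 - ρ) (fun x => w ^ itwd k d ρ x * a x)

/-- the forward rounds `0, …, n - 1` (in this order) -/
def fwdN (w : A) (k d n : ℕ) (a : ℕ → A) : ℕ → A :=
  (List.range n).foldl (fun a ρ => fwdRound w k d ρ a) a

/-- the inverse rounds `n - 1, …, 0` (in this order) -/
def invN (w : A) (k d n : ℕ) (a : ℕ → A) : ℕ → A :=
  (List.range n).reverse.foldl (fun a ρ => invRound w k d ρ a) a

/-- the forward transform -/
def fwd (w : A) (k d : ℕ) (a : ℕ → A) : ℕ → A := fwdN w k d k a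

/-- the inverse transform (not normalised) -/
def inv (w : A) (k d : ℕ) (a : ℕ → A) : ℕ → A := invN w k d k a

/-- cyclic convolution on `(ℤ / 2 ^ k) ^ d`, on flat indices -/
def cconv (k d : ℕ) (a b : ℕ → A) : ℕ → A := fun x =>
  ∑ y ∈ range (2 ^ (k * d)), ∑ z ∈ range (2 ^ (k * d)), if dadd k d y z = x then a y * b z else 0

theorem fwdN_succ (w : A) (k d n : ℕ) (a : ℕ → A) :
    fwdN w k d (n + 1) a = fwdRound w k d n (fwdN w k d n a) := by
  simp [fwdN, List.range_succ]

theorem invN_succ (w : A) (k d n : ℕ) (a : ℕ → A) :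
    invN w k d (n + 1) a = invN w k d n (invRound w k d n a) := by
  simp [invN, List.range_succ]

theorem tw_le (k ρ z : ℕ) (hρ : ρ < k) : tw k ρ z ≤ 2 ^ k := by
  unfold tw
  split_ifs
  · have h1 : z % 2 ^ (k - 1 - ρ) ≤ 2 ^ (k - 1 - ρ) := (Nat.mod_lt _ (by positivity)).le
    calc z % 2 ^ (k - 1 - ρ) * 2 ^ ρ ≤ 2 ^ (k - 1 - ρ) * 2 ^ ρ := Nat.mul_le_mul_right _ h1
      _ = 2 ^ (k - 1 - ρ + ρ) := by rw [pow_add]
      _ ≤ 2 ^ k := Nat.pow_le_pow_right (by norm_num) (by omega)
  · exact Nat.zero_le _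

theorem twd_le (k d ρ x : ℕ) (hρ : ρ < k) : twd k d ρ x ≤ d * 2 ^ k := by
  unfold twd
  calc ∑ i ∈ range d, tw k ρ (dig k i x) ≤ ∑ _i ∈ range d, 2 ^ k :=
        Finset.sum_le_sum fun i _ => tw_le k ρ _ hρ
    _ = d * 2 ^ k := by simp

theorem pow_two_pow_eq_one {w : A} {k : ℕ} (hk : 0 < k) (hw : w ^ 2 ^ (k - 1) = -1) :
    w ^ 2 ^ k = 1 := by
  obtain ⟨j, rfl⟩ : ∃ j, k = j + 1 := ⟨k - 1, by omega⟩
  rw [Nat.add_sub_cancel] at hw
  rw [pow_succ, pow_mul, hw]
  simp

theorem itwd_mul_twd {w : A} {k : ℕ} (hw : w ^ 2 ^ k = 1) (d : ℕ) {ρ : ℕ} (hρ : ρ < k) (x : ℕ) :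
    w ^ itwd k d ρ x * w ^ twd k d ρ x = 1 := by
  rw [← pow_add, itwd, Nat.sub_add_cancel (twd_le k d ρ x hρ), mul_comm d, pow_mul, hw, one_pow]

theorem Hlay_mul (c : A) (k d β : ℕ) (a : ℕ → A) :
    Hlay k d β (fun x => c * a x) = fun x => c * Hlay k d β a x :=
  Hs_map (AddMonoidHom.mulLeft c) _ a

theorem invRound_mul (c w : A) (k d ρ : ℕ) (a : ℕ → A) :
    invRound w k d ρ (fun x => c * a x) = fun x => c * invRound w k d ρ a x := by
  unfold invRound
  rw [← Hlay_mul]
  congr 1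
  funext x
  ring

theorem invN_mul (c w : A) (k d n : ℕ) (a : ℕ → A) :
    invN w k d n (fun x => c * a x) = fun x => c * invN w k d n a x := by
  induction n generalizing a with
  | zero => rfl
  | succ n ih => rw [invN_succ, invRound_mul, ih, invN_succ]

theorem fwdRound_mul (c w : A) (k d ρ : ℕ) (a : ℕ → A) :
    fwdRound w k d ρ (fun x => c * a x) = fun x => c * fwdRound w k d ρ a x := by
  unfold fwdRound
  rw [Hlay_mul]
  funext x
  ring

theorem fwdN_mul (c w : A) (k d n : ℕ) (a : ℕ → A) :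
    fwdN w k d n (fun x => c * a x) = fun x => c * fwdN w k d n a x := by
  induction n generalizing a with
  | zero => rfl
  | succ n ih => rw [fwdN_succ, ih, fwdRound_mul, fwdN_succ]

theorem invRound_fwdRound {w : A} {k : ℕ} (hw : w ^ 2 ^ k = 1) (d : ℕ) {ρ : ℕ} (hρ : ρ < k)
    (a : ℕ → A) : invRound w k d ρ (fwdRound w k d ρ a) = fun x => 2 ^ d * a x := by
  unfold invRound fwdRound
  have : (fun x => w ^ itwd k d ρ x * (w ^ twd k d ρ x * Hlay k d (k - 1 - ρ) a x)) =
      Hlay k d (k - 1 - ρ) a := by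
    funext x
    rw [← mul_assoc, itwd_mul_twd hw d hρ, one_mul]
  rw [this, Hlay_Hlay]
  funext x
  simp

theorem invN_fwdN {w : A} {k : ℕ} (hw : w ^ 2 ^ k = 1) (d : ℕ) {n : ℕ} (hn : n ≤ k)
    (a : ℕ → A) : invN w k d n (fwdN w k d n a) = fun x => 2 ^ (n * d) * a x := by
  induction n with
  | zero => funext x; simp [invN, fwdN]
  | succ n ih =>
    rw [invN_succ, fwdN_succ, invRound_fwdRound hw d (by omega), invN_mul, ih (by omega)]
    funext x
    rw [← mul_assoc, ← pow_add]
    congr 2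
    ring

theorem fwdRound_congr (w : A) {k d ρ : ℕ} (hk : 0 < k) {a b : ℕ → A}
    (h : ∀ x < 2 ^ (k * d), a x = b x) :
    ∀ x < 2 ^ (k * d), fwdRound w k d ρ a x = fwdRound w k d ρ b x := by
  intro x hx
  simp only [fwdRound]
  rw [Hlay_congr (by omega) h x hx]

theorem invRound_congr (w : A) {k d ρ : ℕ} (hk : 0 < k) {a b : ℕ → A}
    (h : ∀ x < 2 ^ (k * d), a x = b x) :
    ∀ x < 2 ^ (k * d), invRound w k d ρ a x = invRound w k d ρ b x :=
  Hlay_congr (by omega) (fun x hx => by rw [h x hx])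

theorem fwdN_congr (w : A) {k d : ℕ} (hk : 0 < k) (n : ℕ) {a b : ℕ → A}
    (h : ∀ x < 2 ^ (k * d), a x = b x) :
    ∀ x < 2 ^ (k * d), fwdN w k d n a x = fwdN w k d n b x := by
  induction n with
  | zero => exact h
  | succ n ih => rw [fwdN_succ, fwdN_succ]; exact fwdRound_congr w hk ih

theorem invN_congr (w : A) {k d : ℕ} (hk : 0 < k) (n : ℕ) {a b : ℕ → A}
    (h : ∀ x < 2 ^ (k * d), a x = b x) :
    ∀ x < 2 ^ (k * d), invN w k d n a x = invN w k d n b x := by
  induction n generalizing a b with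
  | zero => exact h
  | succ n ih => rw [invN_succ, invN_succ]; exact ih (invRound_congr w hk h)

/-! #### linear combinations and product functions -/

theorem Hbit_sum {ι : Type*} (s : Finset ι) (c : ι → A) (f : ι → ℕ → A) (j : ℕ) :
    Hbit j (fun x => ∑ y ∈ s, c y * f y x) = fun x => ∑ y ∈ s, c y * Hbit j (f y) x := by
  funext x
  simp only [Hbit]
  split_ifs
  · rw [← Finset.sum_sub_distrib]
    exact Finset.sum_congr rfl fun y _ => by ring
  · rw [← Finset.sum_add_distrib]
    exact Finset.sum_congr rfl fun y _ => by ring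

theorem Hs_sum {ι : Type*} (s : Finset ι) (c : ι → A) (f : ι → ℕ → A) (js : List ℕ) :
    Hs js (fun x => ∑ y ∈ s, c y * f y x) = fun x => ∑ y ∈ s, c y * Hs js (f y) x := by
  induction js with
  | nil => rfl
  | cons j js ih => rw [Hs_cons, ih, Hbit_sum]; rfl

theorem fwdN_sum {ι : Type*} (s : Finset ι) (c : ι → A) (f : ι → ℕ → A) (w : A) (k d n : ℕ) :
    fwdN w k d n (fun x => ∑ y ∈ s, c y * f y x) =
      fun x => ∑ y ∈ s, c y * fwdN w k d n (f y) x := by
  induction n with
  | zero => rfl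
  | succ n ih =>
    simp only [fwdN_succ, ih]
    unfold fwdRound Hlay
    rw [Hs_sum]
    funext x
    rw [Finset.mul_sum]
    exact Finset.sum_congr rfl fun y _ => by ring

/-- a product of functions of the single digits -/
def prodF (k d : ℕ) (g : ℕ → ℕ → A) : ℕ → A := fun x => ∏ i ∈ range d, g i (dig k i x)

theorem Hbit_prodF {k d β i : ℕ} (hβ : β < k) (hi : i < d) (g : ℕ → ℕ → A) :
    Hbit (k * i + β) (prodF k d g) = prodF k d (Function.update g i (Hbit β (g i))) := by
  funext x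
  have hm : i ∈ range d := Finset.mem_range.2 hi
  have e1 : ∀ (g' : ℕ → ℕ → A) (y : ℕ), prodF k d g' y =
      g' i (dig k i y) * ∏ j ∈ (range d).erase i, g' j (dig k j y) := fun g' y =>
    (Finset.mul_prod_erase (range d) (fun j => g' j (dig k j y)) hm).symm
  have e2 : ∏ j ∈ (range d).erase i, g j (dig k j (x ^^^ 2 ^ (k * i + β))) =
      ∏ j ∈ (range d).erase i, g j (dig k j x) :=
    Finset.prod_congr rfl fun j hj => by rw [dig_xor_ne hβ (Finset.ne_of_mem_erase hj)]
  have e3 : ∏ j ∈ (range d).erase i, Function.update g i (Hbit β (g i)) j (dig k j x) =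
      ∏ j ∈ (range d).erase i, g j (dig k j x) :=
    Finset.prod_congr rfl fun j hj => by
      rw [Function.update_of_ne (Finset.ne_of_mem_erase hj)]
  rw [e1, e3, Function.update_self]
  simp only [Hbit]
  rw [e1, e1, e2, dig_xor_same hβ, testBit_dig_of_lt hβ]
  split_ifs <;> ring

theorem Hs_prodF {k d β : ℕ} (hβ : β < k) (g : ℕ → ℕ → A) (L : List ℕ) (hL : L.Nodup)
    (hd : ∀ i ∈ L, i < d) :
    Hs (L.map fun i => k * i + β) (prodF k d g) =
      prodF k d (fun i => if i ∈ L then Hbit β (g i) else g i) := by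
  induction L with
  | nil => simp
  | cons i L ih =>
    rw [List.nodup_cons] at hL
    rw [List.map_cons, Hs_cons, ih hL.2 (fun j hj => hd j (by simp [hj])),
      Hbit_prodF hβ (hd i (by simp))]
    congr 1
    funext j
    by_cases hj : j = i
    · subst hj
      simp [hL.1]
    · simp [hj]

theorem Hlay_prodF {k d β : ℕ} (hβ : β < k) (g : ℕ → ℕ → A) :
    Hlay k d β (prodF k d g) = prodF k d (fun i => Hbit β (g i)) := by
  unfold Hlay layBits
  rw [Hs_prodF hβ g _ List.nodup_range (fun i hi => List.mem_range.1 hi)]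
  funext x
  exact Finset.prod_congr rfl fun i hi => by
    simp only [if_pos (List.mem_range.2 (Finset.mem_range.1 hi))]

/-- the frequency read off the `n` highest bits of a digit (bit reversal) -/
def rev (k : ℕ) : ℕ → ℕ → ℕ
  | 0, _ => 0
  | n + 1, z => rev k n z + if z.testBit (k - 1 - n) then 2 ^ n else 0

theorem rev_xor {k n m : ℕ} (hm : m ≤ n) (hn : n < k) (z : ℕ) :
    rev k m (z ^^^ 2 ^ (k - 1 - n)) = rev k m z := by
  induction m with
  | zero => rfl
  | succ m ih => rw [rev, rev, ih (by omega), testBit_xor_ne (by omega)]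

/-- one digit after `n` rounds, started from the indicator of `c` -/
def phi (w : A) (k n c z : ℕ) : A :=
  if z % 2 ^ (k - n) = c % 2 ^ (k - n) then w ^ (rev k n z * c) else 0

theorem mod_two_pow_succ_iff (β z c : ℕ) : z % 2 ^ (β + 1) = c % 2 ^ (β + 1) ↔
    z % 2 ^ β = c % 2 ^ β ∧ z.testBit β = c.testBit β := by
  constructor
  · intro h
    constructor
    · apply Nat.eq_of_testBit_eq
      intro j
      have := congrArg (fun u => u.testBit j) h
      simp only [Nat.testBit_mod_two_pow] at this ⊢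
      by_cases hj : j < β
      · simpa [hj, Nat.lt_succ_of_lt hj] using this
      · simp [hj]
    · have := congrArg (fun u => u.testBit β) h
      simpa [Nat.testBit_mod_two_pow] using this
  · rintro ⟨h1, h2⟩
    apply Nat.eq_of_testBit_eq
    intro j
    have := congrArg (fun u => u.testBit j) h1
    simp only [Nat.testBit_mod_two_pow] at this ⊢
    rcases lt_trichotomy j β with hj | rfl | hj
    · simpa [hj, Nat.lt_succ_of_lt hj] using this
    · simp [h2]
    · have : ¬ j < β + 1 := by omega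
      simp [this]

theorem xor_mod_two_pow (β z : ℕ) : (z ^^^ 2 ^ β) % 2 ^ β = z % 2 ^ β := by
  apply Nat.eq_of_testBit_eq
  intro j
  simp only [Nat.testBit_mod_two_pow]
  by_cases hj : j < β
  · rw [testBit_xor_ne (by omega)]
  · simp [hj]

theorem pow_shift {w : A} {k n : ℕ} (hn : n < k) (hw : w ^ 2 ^ (k - 1) = -1) (c : ℕ) :
    w ^ (2 ^ n * c) = (if c.testBit (k - 1 - n) then -1 else 1) *
      w ^ (c % 2 ^ (k - 1 - n) * 2 ^ n) := by
  obtain ⟨β, rfl⟩ : ∃ β, k = β + n + 1 := ⟨k - 1 - n, by omega⟩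
  have e1 : β + n + 1 - 1 - n = β := by omega
  rw [e1]
  rw [Nat.add_sub_cancel] at hw
  have hc : 2 ^ n * c = 2 ^ (β + n) * (c / 2 ^ β) + c % 2 ^ β * 2 ^ n := by
    conv_lhs => rw [← Nat.div_add_mod c (2 ^ β)]
    ring
  rw [hc, pow_add, pow_mul, hw]
  congr 1
  rw [Nat.testBit_eq_decide_div_mod_eq]
  rcases Nat.even_or_odd (c / 2 ^ β) with h | h
  · rw [h.neg_one_pow]
    have := Nat.even_iff.1 h
    simp [this]
  · rw [h.neg_one_pow]
    have := Nat.odd_iff.1 h
    simp [this]

theorem phi_step {w : A} {k n : ℕ} (hn : n < k) (hw : w ^ 2 ^ (k - 1) = -1) (c z : ℕ) :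
    w ^ tw k n z * Hbit (k - 1 - n) (phi w k n c) z = phi w k (n + 1) c z := by
  have e1 : k - n = k - 1 - n + 1 := by omega
  have e2 : k - (n + 1) = k - 1 - n := by omega
  have hs := pow_shift hn hw c
  simp only [Hbit, phi, tw, rev, e1, e2, mod_two_pow_succ_iff, xor_mod_two_pow, testBit_xor_self,
    rev_xor le_rfl hn]
  by_cases h1 : z % 2 ^ (k - 1 - n) = c % 2 ^ (k - 1 - n)
  · cases hz : z.testBit (k - 1 - n) <;> cases hc : c.testBit (k - 1 - n)
    · simp [h1]
    · simp [h1]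
    · rw [hc] at hs
      simp only [h1, if_true, add_mul, pow_add, hs]
      simp
      ring
    · rw [hc] at hs
      simp only [h1, if_true, add_mul, pow_add, hs]
      simp
      ring
  · simp [h1]

theorem fwdN_prodF {w : A} {k : ℕ} (hw : w ^ 2 ^ (k - 1) = -1) (d : ℕ) (c : ℕ → ℕ) {n : ℕ}
    (hn : n ≤ k) :
    fwdN w k d n (prodF k d (fun i => phi w k 0 (c i))) = prodF k d (fun i => phi w k n (c i)) := by
  induction n with
  | zero => rfl
  | succ n ih =>
    rw [fwdN_succ, ih (by omega)]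
    unfold fwdRound
    rw [Hlay_prodF (by omega)]
    funext x
    unfold prodF twd
    rw [← Finset.prod_pow_eq_pow_sum, ← Finset.prod_mul_distrib]
    exact Finset.prod_congr rfl fun i _ => phi_step (by omega) hw _ _

/-- the character attached to the output index `x` -/
def chi (w : A) (k d x y : ℕ) : A := ∏ i ∈ range d, w ^ (rev k k (dig k i x) * dig k i y)

/-- **The forward transform evaluates the characters.** -/
theorem fwd_eq {w : A} {k : ℕ} (hk : 0 < k) (hw : w ^ 2 ^ (k - 1) = -1) (d : ℕ) (a : ℕ → A) :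
    ∀ x < 2 ^ (k * d), fwd w k d a x = ∑ y ∈ range (2 ^ (k * d)), a y * chi w k d x y := by
  intro x hx
  have h1 : ∀ x < 2 ^ (k * d), a x = ∑ y ∈ range (2 ^ (k * d)),
      a y * prodF k d (fun i => phi w k 0 (dig k i y)) x := by
    intro x hx
    rw [Finset.sum_eq_single x]
    · unfold prodF phi
      simp [rev]
    · intro y hy hyx
      have : ¬ ∀ i < d, dig k i x = dig k i y := fun h =>
        hyx (eq_of_dig_eq hx (Finset.mem_range.1 hy) h).symm
      push Not at this
      obtain ⟨i, hi, hne⟩ := this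
      unfold prodF
      rw [Finset.prod_eq_zero (Finset.mem_range.2 hi), mul_zero]
      simp only [phi]
      rw [Nat.sub_zero, Nat.mod_eq_of_lt (dig_lt _ _ _), Nat.mod_eq_of_lt (dig_lt _ _ _),
        if_neg hne]
    · intro h
      exact absurd (Finset.mem_range.2 hx) h
  unfold fwd
  rw [fwdN_congr w hk k h1 x hx, fwdN_sum]
  refine Finset.sum_congr rfl fun y _ => ?_
  rw [fwdN_prodF hw d _ le_rfl]
  congr 1
  unfold prodF chi phi
  simp [Nat.mod_one]

theorem chi_dadd {w : A} {k : ℕ} (hw : w ^ 2 ^ k = 1) (d x y z : ℕ) :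
    chi w k d x (dadd k d y z) = chi w k d x y * chi w k d x z := by
  unfold chi
  rw [← Finset.prod_mul_distrib]
  refine Finset.prod_congr rfl fun i hi => ?_
  rw [dig_dadd (Finset.mem_range.1 hi), ← pow_add, ← mul_add, mul_comm, pow_mul,
    ← pow_eq_pow_mod _ hw, ← pow_mul, mul_comm]

/-- **Convolution theorem.** -/
theorem fwd_cconv {w : A} {k : ℕ} (hk : 0 < k) (hw : w ^ 2 ^ (k - 1) = -1) (d : ℕ)
    (a b : ℕ → A) : ∀ x < 2 ^ (k * d),
      fwd w k d (cconv k d a b) x = fwd w k d a x * fwd w k d b x := by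
  intro x hx
  rw [fwd_eq hk hw d _ x hx, fwd_eq hk hw d _ x hx, fwd_eq hk hw d _ x hx, Finset.sum_mul_sum]
  unfold cconv
  simp only [Finset.sum_mul]
  rw [Finset.sum_comm]
  refine Finset.sum_congr rfl fun y _ => ?_
  rw [Finset.sum_comm]
  refine Finset.sum_congr rfl fun z _ => ?_
  rw [Finset.sum_eq_single (dadd k d y z)]
  · rw [if_pos rfl, chi_dadd (pow_two_pow_eq_one hk hw)]
    ring
  · intro u _ hu
    rw [if_neg (Ne.symm hu), zero_mul]
  · intro h
    exact absurd (Finset.mem_range.2 (dadd_lt k d y z)) h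

/-- **The exact convolution algorithm.** -/
theorem inv_fwd_mul {w : A} {k : ℕ} (hk : 0 < k) (hw : w ^ 2 ^ (k - 1) = -1) (d : ℕ)
    (a b : ℕ → A) : ∀ x < 2 ^ (k * d),
      inv w k d (fun y => fwd w k d a y * fwd w k d b y) x = 2 ^ (k * d) * cconv k d a b x := by
  intro x hx
  unfold inv
  rw [invN_congr w hk k (fun y hy => (fwd_cconv hk hw d a b y hy).symm) x hx]
  have := invN_fwdN (pow_two_pow_eq_one hk hw) d le_rfl (cconv k d a b)
  exact congrFun this x

end Transform

end Crest.Agent.X326.M4
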