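import Crest.Agent.X326.M4.Defs
import Crest.Agent.Lib.PT.ArithMore

/-!
Row 326 (S0503), part M4: the twiddle exponents as powers of the record variable, and their
polynomial-time computability.
-/

set_option autoImplicit false

namespace Crest.Agent.X326.M4

open Crest.Agent.Lib.PT

/-! ### exponents of `y` -/

/-- the root of unity of order `t` is `y ^ p.st` -/
def Par.st (p : Par) : ℕ := 2 ^ (p.lr + 1 - p.k)

/-- exponent of `y` of the forward twiddle of record `x` in round `ρ` -/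
def twE (p : Par) (ρ x : ℕ) : ℕ := twd p.k p.d ρ x * p.st % (2 * p.r)

/-- exponent of `y` of the inverse twiddle of record `x` in round `ρ` -/
def itwE (p : Par) (ρ x : ℕ) : ℕ := itwd p.k p.d ρ x * p.st % (2 * p.r)

theorem Par.r_pos (p : Par) : 0 < p.r := by unfold Par.r; positivity

theorem twE_lt (p : Par) (ρ x : ℕ) : twE p ρ x < 2 * p.r :=
  Nat.mod_lt _ (by have := p.r_pos; omega)

theorem itwE_lt (p : Par) (ρ x : ℕ) : itwE p ρ x < 2 * p.r :=
  Nat.mod_lt _ (by have := p.r_pos; omega)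

theorem twE_le (p : Par) (ρ x : ℕ) : twE p ρ x ≤ 2 * p.r := (twE_lt p ρ x).le

theorem itwE_le (p : Par) (ρ x : ℕ) : itwE p ρ x ≤ 2 * p.r := (itwE_lt p ρ x).le

section ring

variable {A : Type*} [CommRing A] {y : A}

theorem pow_twE (p : Par) (hy : y ^ p.r = -1) (ρ x : ℕ) :
    y ^ twE p ρ x = (y ^ p.st) ^ twd p.k p.d ρ x := by
  rw [twE, pow_mod_two_mul hy, ← pow_mul, mul_comm]

theorem pow_itwE (p : Par) (hy : y ^ p.r = -1) (ρ x : ℕ) :
    y ^ itwE p ρ x = (y ^ p.st) ^ itwd p.k p.d ρ x := by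
  rw [itwE, pow_mod_two_mul hy, ← pow_mul, mul_comm]

theorem st_pow (p : Par) (hy : y ^ p.r = -1) (h1 : 1 ≤ p.k) (h2 : p.k ≤ p.lr + 1) :
    (y ^ p.st) ^ 2 ^ (p.k - 1) = -1 := by
  rw [← pow_mul, Par.st, ← pow_add, ← hy, Par.r]
  congr 2
  omega

end ring

/-- the root of unity of order `t` in the ring of records -/
noncomputable def Par.w (p : Par) : Rg p.r p.M := yR p.r p.M ^ p.st

theorem Par.w_pow (p : Par) (h1 : 1 ≤ p.k) (h2 : p.k ≤ p.lr + 1) : p.w ^ 2 ^ (p.k - 1) = -1 :=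
  st_pow p (yR_pow _ _) h1 h2

theorem yR_pow_twE (p : Par) (ρ x : ℕ) : yR p.r p.M ^ twE p ρ x = p.w ^ twd p.k p.d ρ x :=
  pow_twE p (yR_pow _ _) ρ x

theorem yR_pow_itwE (p : Par) (ρ x : ℕ) : yR p.r p.M ^ itwE p ρ x = p.w ^ itwd p.k p.d ρ x :=
  pow_itwE p (yR_pow _ _) ρ x

/-! ### polynomial time -/

section pt

variable {α : Type} [PTCode α]

/-- the parameters as a tuple of unary numbers -/
def Par.tup (p : Par) : Un × Un × Un × Un := (Un.mk p.k, Un.mk p.d, Un.mk p.lr, Un.mk p.P)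

theorem ptf_tup : PTF Par.tup := ⟨_, PT.id, fun _ => rfl⟩

theorem ptu_k {p : α → Par} (hp : PTF p) : PTU fun a => (p a).k :=
  PTU.val (f := fun a => (Par.tup (p a)).1) (PTF.comp PTF.fst (PTF.comp ptf_tup hp))

theorem ptu_d {p : α → Par} (hp : PTF p) : PTU fun a => (p a).d :=
  PTU.val (f := fun a => (Par.tup (p a)).2.1)
    (PTF.comp PTF.fst (PTF.comp PTF.snd (PTF.comp ptf_tup hp)))

theorem ptu_lr {p : α → Par} (hp : PTF p) : PTU fun a => (p a).lr :=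
  PTU.val (f := fun a => (Par.tup (p a)).2.2.1)
    (PTF.comp PTF.fst (PTF.comp PTF.snd (PTF.comp PTF.snd (PTF.comp ptf_tup hp))))

theorem ptu_P {p : α → Par} (hp : PTF p) : PTU fun a => (p a).P :=
  PTU.val (f := fun a => (Par.tup (p a)).2.2.2)
    (PTF.comp PTF.snd (PTF.comp PTF.snd (PTF.comp PTF.snd (PTF.comp ptf_tup hp))))

/-- building a parameter record from unary numbers -/
theorem ptf_parMk {k d lr P : α → ℕ} (hk : PTU k) (hd : PTU d) (hl : PTU lr) (hP : PTU P) :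
    PTF fun a => Par.mk (k a) (d a) (lr a) (P a) := by
  have h : PTF fun a => (Un.mk (k a), Un.mk (d a), Un.mk (lr a), Un.mk (P a)) :=
    PTF.prodMk hk (PTF.prodMk hd (PTF.prodMk hl hP))
  obtain ⟨g, hg, e⟩ := h
  exact ⟨g, hg, fun a => e a⟩

theorem ptf_t {p : α → Par} (hp : PTF p) : PTF fun a => (p a).t := PTF.natTwoPow (ptu_k hp)

theorem ptf_N {p : α → Par} (hp : PTF p) : PTF fun a => (p a).N :=
  PTF.natTwoPow ((ptu_k hp).mul (ptu_d hp))

theorem ptf_r {p : α → Par} (hp : PTF p) : PTF fun a => (p a).r := PTF.natTwoPow (ptu_lr hp)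

theorem ptf_M {p : α → Par} (hp : PTF p) : PTF fun a => (p a).M :=
  PTF.natSub (PTF.natTwoPow (ptu_P hp)) (PTF.const 1)

theorem ptf_st {p : α → Par} (hp : PTF p) : PTF fun a => (p a).st :=
  PTF.natTwoPow ((ptu_lr hp).succ.sub (ptu_k hp))

theorem ptf_dig {k i x : α → ℕ} (hk : PTU k) (hi : PTF i) (hx : PTF x) :
    PTF fun a => dig (k a) (i a) (x a) :=
  (PTF.natMod (PTF.natShiftRight hx (PTF.natMul hk.toPTF hi)) (PTF.natTwoPow hk)).of_eq
    fun a => by rw [dig, Nat.shiftRight_eq_div_pow]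

theorem ptf_tw {k ρ z : α → ℕ} (hk : PTU k) (hρ : PTU ρ) (hz : PTF z) :
    PTF fun a => tw (k a) (ρ a) (z a) := by
  have hβ : PTU fun a => k a - 1 - ρ a := (hk.sub (PTU.const 1)).sub hρ
  exact PTF.ite (PTF.natTestBit hz hβ.toPTF).toPTPred
    (PTF.natMul (PTF.natMod hz (PTF.natTwoPow hβ)) (PTF.natTwoPow hρ)) (PTF.const 0)

theorem ptf_twd {k d ρ x : α → ℕ} (hk : PTU k) (hd : PTU d) (hρ : PTU ρ) (hx : PTF x) :
    PTF fun a => twd (k a) (d a) (ρ a) (x a) :=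
  PTF.natSumRange hd (f := fun a i => tw (k a) (ρ a) (dig (k a) i (x a)))
    (ptf_tw (hk.comp PTF.fst) (hρ.comp PTF.fst)
      (ptf_dig (hk.comp PTF.fst) PTF.snd (PTF.comp hx PTF.fst)))

theorem ptf_itwd {k d ρ x : α → ℕ} (hk : PTU k) (hd : PTU d) (hρ : PTU ρ) (hx : PTF x) :
    PTF fun a => itwd (k a) (d a) (ρ a) (x a) :=
  PTF.natSub (PTF.natMul hd.toPTF (PTF.natTwoPow hk)) (ptf_twd hk hd hρ hx)

theorem ptf_twE {p : α → Par} {ρ x : α → ℕ} (hp : PTF p) (hρ : PTU ρ) (hx : PTF x) :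
    PTF fun a => twE (p a) (ρ a) (x a) :=
  PTF.natMod (PTF.natMul (ptf_twd (ptu_k hp) (ptu_d hp) hρ hx) (ptf_st hp))
    (PTF.natMul (PTF.const 2) (ptf_r hp))

theorem ptf_itwE {p : α → Par} {ρ x : α → ℕ} (hp : PTF p) (hρ : PTU ρ) (hx : PTF x) :
    PTF fun a => itwE (p a) (ρ a) (x a) :=
  PTF.natMod (PTF.natMul (ptf_itwd (ptu_k hp) (ptu_d hp) hρ hx) (ptf_st hp))
    (PTF.natMul (PTF.const 2) (ptf_r hp))

/-- the form `PTF₂` with the context `(p, ρ)` -/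
theorem ptf₂_twE : PTF₂ fun (c : Par × Un) (x : ℕ) => twE c.1 c.2.val x :=
  ptf_twE (p := fun q : (Par × Un) × ℕ => q.1.1) (PTF.comp PTF.fst PTF.fst)
    (PTU.val (f := fun q : (Par × Un) × ℕ => q.1.2) (PTF.comp PTF.snd PTF.fst)) PTF.snd

theorem ptf₂_itwE : PTF₂ fun (c : Par × Un) (x : ℕ) => itwE c.1 c.2.val x :=
  ptf_itwE (p := fun q : (Par × Un) × ℕ => q.1.1) (PTF.comp PTF.fst PTF.fst)
    (PTU.val (f := fun q : (Par × Un) × ℕ => q.1.2) (PTF.comp PTF.snd PTF.fst)) PTF.snd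

end pt

end Crest.Agent.X326.M4
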