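import Crest.Agent.X326.M4.Defs

/-!
Row 326 (S0503), part M4: the bridge between the convolution `FB.tower` of flat integer arrays
(records multiplied by `FB.nega`) and the convolution `cconv` over the ring `Rg`.
-/

set_option autoImplicit false

namespace Crest.Agent.X326.M4

open Finset Polynomial

/-! ### digitwise difference -/

/-- digitwise cyclic difference of flat indices with `e` digits in base `P` -/
def subD (P : ℕ) : ℕ → ℕ → ℕ → ℕ
  | 0, _, _ => 0
  | e + 1, x, y => subD P e (x / P) (y / P) * P + (x % P + (P - y % P)) % P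

theorem subD_lt {P : ℕ} (hP : 0 < P) : ∀ (e x y : ℕ), subD P e x y < P ^ e
  | 0, _, _ => by simp [subD]
  | e + 1, x, y => by
    have h1 := subD_lt hP e (x / P) (y / P)
    have h2 : (x % P + (P - y % P)) % P < P := Nat.mod_lt _ hP
    have h3 : (subD P e (x / P) (y / P) + 1) * P ≤ P ^ e * P := Nat.mul_le_mul_right P h1
    rw [subD, pow_succ]
    nlinarith

theorem mod_add_eq_iff {P x y n : ℕ} (hx : x < P) (hy : y < P) (hn : n < P) :
    (x + y) % P = n ↔ y = (n + (P - x)) % P := by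
  constructor
  · rintro rfl
    rw [Nat.mod_add_mod]
    have : x + y + (P - x) = y + P := by omega
    rw [this, Nat.add_mod_right, Nat.mod_eq_of_lt hy]
  · rintro rfl
    rw [Nat.add_mod_mod]
    have : x + (n + (P - x)) = n + P := by omega
    rw [this, Nat.add_mod_right, Nat.mod_eq_of_lt hn]

theorem dig_zero (k x : ℕ) : dig k 0 x = x % 2 ^ k := by simp [dig]

theorem dig_succ (k i x : ℕ) : dig k (i + 1) x = dig k i (x / 2 ^ k) := by
  unfold dig
  rw [Nat.div_div_eq_div_mul, ← pow_add, Nat.mul_succ, Nat.add_comm]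

theorem dig_subD (k : ℕ) : ∀ (e x y i : ℕ), i < e →
    dig k i (subD (2 ^ k) e x y) = (dig k i x + (2 ^ k - dig k i y)) % 2 ^ k
  | 0, _, _, _, hi => by omega
  | e + 1, x, y, 0, _ => by
    rw [dig_zero, dig_zero, dig_zero, subD, Nat.mul_add_mod_self_right, Nat.mod_mod]
  | e + 1, x, y, i + 1, hi => by
    have hP : 0 < 2 ^ k := by positivity
    rw [dig_succ, dig_succ, dig_succ, ← dig_subD k e _ _ i (by omega), subD, Nat.add_comm,
      Nat.add_mul_div_right _ _ hP, Nat.div_eq_of_lt (Nat.mod_lt _ hP), Nat.zero_add]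

theorem dadd_eq_iff {k d x y n : ℕ} (hy : y < 2 ^ (k * d)) (hn : n < 2 ^ (k * d)) :
    dadd k d x y = n ↔ y = subD (2 ^ k) d n x := by
  have hS : subD (2 ^ k) d n x < 2 ^ (k * d) := by
    rw [pow_mul]; exact subD_lt (by positivity) d n x
  constructor
  · rintro rfl
    refine eq_of_dig_eq hy hS fun i hi => ?_
    rw [dig_subD k d _ _ i hi, dig_dadd hi]
    exact (mod_add_eq_iff (dig_lt k i x) (dig_lt k i y) (Nat.mod_lt _ (by positivity))).1 rfl
  · rintro rfl
    refine eq_of_dig_eq (dadd_lt k d _ _) hn fun i hi => ?_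
    rw [dig_dadd hi]
    exact (mod_add_eq_iff (dig_lt k i x) (dig_lt k i _) (dig_lt k i n)).2 (dig_subD k d _ _ i hi)

theorem cconv_eq {A : Type} [CommRing A] (k d : ℕ) (a b : ℕ → A) {n : ℕ} (hn : n < 2 ^ (k * d)) :
    cconv k d a b n = ∑ x ∈ range (2 ^ (k * d)), a x * b (subD (2 ^ k) d n x) := by
  unfold cconv
  refine sum_congr rfl fun x _ => ?_
  have hS : subD (2 ^ k) d n x < 2 ^ (k * d) := by
    rw [pow_mul]; exact subD_lt (by positivity) d n x
  rw [sum_eq_single_of_mem (subD (2 ^ k) d n x) (mem_range.2 hS)]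
  · rw [if_pos ((dadd_eq_iff hS hn).2 rfl)]
  · intro y hy hne
    rw [if_neg fun h => hne ((dadd_eq_iff (mem_range.1 hy) hn).1 h)]

/-! ### closed form of `FB.tower` -/

theorem blk_blk (P Z i Y : ℕ) (a : FB.Arr) :
    FB.blk Z i (FB.blk (P * Z) Y a) = FB.blk Z (Y * P + i) a := by
  funext z
  simp only [FB.blk]
  congr 1
  ring

theorem sum_range_mul {A : Type} [AddCommMonoid A] (m P : ℕ) (f : ℕ → A) :
    ∑ Y ∈ range (m * P), f Y = ∑ Y ∈ range m, ∑ i ∈ range P, f (Y * P + i) := by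
  induction m with
  | zero => simp
  | succ m ih => rw [Nat.succ_mul, sum_range_add, ih, sum_range_succ]

theorem tower_eq {P : ℕ} (hP : 0 < P) : ∀ (e Z : ℕ) (μ : FB.Arr → FB.Arr → FB.Arr)
    (a b : FB.Arr) (x : ℕ), 0 < Z →
    FB.tower P e Z μ a b x = ∑ Y ∈ range (P ^ (e + 1)),
      μ (FB.blk Z Y a) (FB.blk Z (subD P (e + 1) (x / Z) Y) b) (x % Z)
  | 0, Z, μ, a, b, x, _ => by
    simp only [FB.tower, FB.cyc, zero_add, pow_one]
    refine sum_congr rfl fun i hi => ?_
    simp only [subD, zero_mul, zero_add, Nat.mod_eq_of_lt (mem_range.1 hi), Nat.mod_add_mod]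
  | e + 1, Z, μ, a, b, x, hZ => by
    rw [FB.tower, tower_eq hP e (P * Z) _ a b x (Nat.mul_pos hP hZ), pow_succ P (e + 1),
      sum_range_mul]
    refine sum_congr rfl fun Y _ => ?_
    simp only [FB.cyc]
    refine sum_congr rfl fun i hi => ?_
    have hi' := mem_range.1 hi
    rw [blk_blk, blk_blk, Nat.mod_mul_left_mod]
    have e1 : (Y * P + i) / P = Y := by
      rw [Nat.add_comm, Nat.add_mul_div_right _ _ hP, Nat.div_eq_of_lt hi', Nat.zero_add]
    have e2 : (Y * P + i) % P = i := by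
      rw [Nat.mul_add_mod_self_right, Nat.mod_eq_of_lt hi']
    have e3 : x % (P * Z) / Z = x / Z % P := by
      rw [Nat.mul_comm P Z, Nat.mod_mul_right_div_self]
    have e4 : x / Z / P = x / (P * Z) := by
      rw [Nat.div_div_eq_div_mul, Nat.mul_comm]
    conv_rhs => rw [subD, e1, e2, e4]
    rw [e3]

/-! ### integer records -/

/-- the value in `Rg` of the first `r` entries of an integer array -/
noncomputable def zval (r M : ℕ) (a : FB.Arr) : Rg r M :=
  ∑ j ∈ range r, (a j : Rg r M) * yR r M ^ j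

theorem zval_congr {r M : ℕ} {a b : FB.Arr}
    (h : ∀ j < r, ((a j : ℤ) : ZMod M) = ((b j : ℤ) : ZMod M)) : zval r M a = zval r M b := by
  refine sum_congr rfl fun j hj => ?_
  have h1 : ∀ z : ℤ, (z : Rg r M) = AdjoinRoot.of _ (z : ZMod M) := fun z => by simp
  rw [h1, h1, h j (mem_range.1 hj)]

theorem zval_sum {r M : ℕ} {ι : Type} (s : Finset ι) (f : ι → FB.Arr) :
    zval r M (fun z => ∑ i ∈ s, f i z) = ∑ i ∈ s, zval r M (f i) := by
  unfold zval
  rw [sum_comm]
  refine sum_congr rfl fun j _ => ?_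
  rw [Int.cast_sum, sum_mul]

theorem zval_nega (r M : ℕ) (a b : FB.Arr) :
    zval r M (FB.nega r a b) = zval r M a * zval r M b := by
  unfold zval FB.nega
  simp only [Int.cast_sum, sum_mul]
  rw [sum_comm]
  refine sum_congr rfl fun v hv => ?_
  have hv' := (mem_range.1 hv).le
  obtain ⟨w, hw⟩ := Nat.exists_eq_add_of_le hv'
  have key : ∀ (n : ℕ) (f : ℕ → Rg r M), n = v + w →
      ∑ u ∈ range n, f u = ∑ u ∈ range v, f u + ∑ u ∈ range w, f (v + u) := by
    rintro n f rfl
    exact sum_range_add f v w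
  have key' : ∀ (n : ℕ) (f : ℕ → Rg r M), n = w + v →
      ∑ u ∈ range n, f u = ∑ u ∈ range w, f u + ∑ u ∈ range v, f (w + u) := by
    rintro n f rfl
    exact sum_range_add f w v
  rw [key r _ hw, mul_sum, key' r _ (by omega), add_comm]
  congr 1
  · refine sum_congr rfl fun u _ => ?_
    rw [if_pos (Nat.le_add_right v u), Nat.add_sub_cancel_left, pow_add]
    push_cast
    ring
  · refine sum_congr rfl fun u hu => ?_
    have hu' := mem_range.1 hu
    rw [if_neg (by omega)]
    have e1 : u + r - v = w + u := by omega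
    have e2 : yR r M ^ v * yR r M ^ (w + u) = - yR r M ^ u := by
      rw [← pow_add, ← Nat.add_assoc, ← hw, pow_add, yR_pow]
      ring
    rw [e1]
    push_cast
    linear_combination (-(a v : Rg r M) * (b (w + u) : Rg r M)) * e2

/-- coefficients can be read back from the value -/
theorem eq_of_zval_eq {r M : ℕ} {a b : FB.Arr} (h : zval r M a = zval r M b) :
    ∀ j < r, ((a j : ℤ) : ZMod M) = ((b j : ℤ) : ZMod M) := by
  intro j hj
  have h0 : ∑ j ∈ range r, AdjoinRoot.of _ (((a j : ℤ) : ZMod M) - ((b j : ℤ) : ZMod M)) *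
      yR r M ^ j = 0 := by
    unfold zval at h
    rw [← sub_eq_zero, ← sum_sub_distrib] at h
    rw [← h]
    exact sum_congr rfl (fun j _ => by simp [sub_mul])
  exact sub_eq_zero.1 (Rg_coeff_eq_zero h0 hj)

theorem ev_eq_zval {r M : ℕ} {x : List ℕ} (hx : x.length = r) :
    ev (yR r M) x = zval r M (fun j => (x.getD j 0 : ℕ)) := by
  rw [ev_eq_sum, zval, hx]
  simp

theorem WFA.getD {N r M : ℕ} {l : List (List ℕ)} (h : WFA N r M l) {n : ℕ} (hn : n < N) :
    WF r M (l.getD n []) := by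
  rw [List.getD_eq_getElem _ _ (by rw [h.1]; exact hn)]
  exact h.2 _ (List.getElem_mem _)

theorem arr_eq_zval {N r M : ℕ} {l : List (List ℕ)} (h : WFA N r M l) {a : FB.Arr} {n : ℕ}
    (hn : n < N) (ha : ∀ j < r, coef M l j n = ((a (n * r + j) : ℤ) : ZMod M)) :
    arr r M l n = zval r M (FB.blk r n a) := by
  rw [arr, ev_eq_zval (h.getD hn).1]
  refine zval_congr fun j hj => ?_
  rw [FB.blk, ← ha j hj, coef]
  simp

/-- **Bridge.** An array whose values are the cyclic convolution over `Rg` has the coefficients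
of `FB.tower` modulo `M`. -/
theorem coef_eq_tower {k d r M : ℕ} (hd : 1 ≤ d) (hr : 0 < r) {la lb lc : List (List ℕ)}
    (hla : WFA (2 ^ (k * d)) r M la) (hlb : WFA (2 ^ (k * d)) r M lb)
    (hlc : WFA (2 ^ (k * d)) r M lc) {a b : FB.Arr}
    (ha : ∀ n < 2 ^ (k * d), ∀ j < r, coef M la j n = ((a (n * r + j) : ℤ) : ZMod M))
    (hb : ∀ n < 2 ^ (k * d), ∀ j < r, coef M lb j n = ((b (n * r + j) : ℤ) : ZMod M))
    (hc : ∀ n < 2 ^ (k * d), arr r M lc n = cconv k d (arr r M la) (arr r M lb) n) :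
    ∀ n < 2 ^ (k * d), ∀ j < r,
      coef M lc j n = ((FB.tower (2 ^ k) (d - 1) r (FB.nega r) a b (n * r + j) : ℤ) : ZMod M) := by
  intro n hn j hj
  obtain ⟨e, rfl⟩ : ∃ e, d = e + 1 := ⟨d - 1, by omega⟩
  have ht : 0 < 2 ^ k := by positivity
  have h1 : zval r M (fun j => (((lc.getD n []).getD j 0 : ℕ) : ℤ)) =
      zval r M (fun z => ∑ Y ∈ range ((2 ^ k) ^ (e + 1)),
        FB.nega r (FB.blk r Y a) (FB.blk r (subD (2 ^ k) (e + 1) n Y) b) z) := by
    rw [← ev_eq_zval (hlc.getD hn).1, zval_sum]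
    change arr r M lc n = _
    rw [hc n hn, cconv_eq _ _ _ _ hn, ← pow_mul]
    refine sum_congr rfl fun Y hY => ?_
    have hY' := mem_range.1 hY
    have hS := subD_lt ht (e + 1) n Y
    rw [← pow_mul] at hS
    rw [zval_nega, arr_eq_zval hla hY' (ha Y hY'), arr_eq_zval hlb hS (hb _ hS)]
  have h2 := eq_of_zval_eq h1 j hj
  rw [Nat.add_sub_cancel, tower_eq ht e r _ a b _ hr]
  have e1 : (n * r + j) / r = n := by
    rw [Nat.add_comm, Nat.add_mul_div_right _ _ hr, Nat.div_eq_of_lt hj, Nat.zero_add]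
  have e2 : (n * r + j) % r = j := by
    rw [Nat.mul_add_mod_self_right, Nat.mod_eq_of_lt hj]
  rw [e1, e2, ← h2, coef]
  simp

end Crest.Agent.X326.M4
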