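import Crest.Agent.X326.M4.Bridge
import Crest.Agent.X326.M4.TwPT

/-!
Row 326 (S0503), part M4: the convolution algorithm on lists of records and its correctness.
-/

set_option autoImplicit false

namespace Crest.Agent.X326.M4

open Crest.Agent.Lib.PT

/-- arrays of records -/
abbrev Ar : Type := List (List ℕ)

/-- multiply record number `n` by `y ^ e n` -/
def twist (M : ℕ) (e : ℕ → ℕ) (l : Ar) : Ar := l.mapIdx (fun n x => recRot M (e n) x)

section alg

variable (layer : Par × Un × Ar → Ar) (conv : List ℕ → List ℕ → List ℕ)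

/-- forward round -/
def fStep (p : Par) (l : Ar) (ρ : ℕ) : Ar :=
  twist p.M (twE p ρ) (layer (p, ⟨p.k - 1 - ρ⟩, l))

/-- inverse round -/
def iStep (p : Par) (l : Ar) (ρ : ℕ) : Ar :=
  layer (p, ⟨p.k - 1 - ρ⟩, twist p.M (itwE p ρ) l)

/-- forward transform -/
def fwdL (p : Par) (l : Ar) : Ar := (List.range p.k).foldl (fStep layer p) l

/-- inverse transform -/
def invL (p : Par) (l : Ar) : Ar := (List.range p.k).reverse.foldl (iStep layer p) l

/-- pointwise products -/
def mulL (p : Par) (la lb : Ar) : Ar := List.zipWith (recMul conv p.P) la lb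

/-- division by `2 ^ (k * d)` -/
def scaleL (p : Par) (l : Ar) : Ar := l.map (recShift p.P (p.P - p.k * p.d))

/-- the whole algorithm -/
def cvL (p : Par) (la lb : Ar) : Ar :=
  scaleL p (invL layer p (mulL conv p (fwdL layer p la) (fwdL layer p lb)))

end alg

/-! ### pointwise passes -/

theorem Par.N_pos (p : Par) : 0 < p.N := by unfold Par.N; positivity

theorem WFA.twist {N r M : ℕ} {l : Ar} (h : WFA N r M l) (e : ℕ → ℕ) :
    WFA N r M (twist M e l) := by
  refine ⟨by simp [M4.twist, h.1], fun x hx => ?_⟩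
  obtain ⟨i, hi, rfl⟩ := List.getElem_of_mem hx
  simp only [M4.twist, List.getElem_mapIdx]
  exact (h.2 _ (List.getElem_mem _)).rot _

theorem getD_twist {N r M : ℕ} {l : Ar} (h : WFA N r M l) (e : ℕ → ℕ) {n : ℕ} (hn : n < N) :
    (twist M e l).getD n [] = recRot M (e n) (l.getD n []) := by
  have h1 : n < l.length := by rw [h.1]; exact hn
  rw [List.getD_eq_getElem _ _ (by simpa [twist] using h1), List.getD_eq_getElem _ _ h1]
  simp [twist]

theorem arr_twist {N r M : ℕ} {l : Ar} (h : WFA N r M l) {e : ℕ → ℕ} {n : ℕ} (hn : n < N)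
    (he : e n ≤ 2 * r) : arr r M (twist M e l) n = yR r M ^ e n * arr r M l n := by
  rw [arr, getD_twist h _ hn, ev_rot (cast_M_Rg r M) (yR_pow r M) (h.getD hn) he, arr]

theorem arr_twist_twE {p : Par} {l : Ar} (h : p.WF l) (ρ : ℕ) {n : ℕ} (hn : n < p.N) :
    arr p.r p.M (twist p.M (twE p ρ) l) n = p.w ^ twd p.k p.d ρ n * arr p.r p.M l n := by
  rw [arr_twist h hn (twE_le p ρ n), yR_pow_twE]

theorem arr_twist_itwE {p : Par} {l : Ar} (h : p.WF l) (ρ : ℕ) {n : ℕ} (hn : n < p.N) :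
    arr p.r p.M (twist p.M (itwE p ρ) l) n = p.w ^ itwd p.k p.d ρ n * arr p.r p.M l n := by
  rw [arr_twist h hn (itwE_le p ρ n), yR_pow_itwE]

theorem Par.Ok.r_le {p : Par} (hp : p.Ok) : p.r ≤ 2 ^ p.P :=
  Nat.pow_le_pow_right (by norm_num) hp.lr_le

theorem wf_mulL {conv : List ℕ → List ℕ → List ℕ} (hc : IsConv conv) {p : Par} (hp : p.Ok)
    {la lb : Ar} (ha : p.WF la) (hb : p.WF lb) : p.WF (mulL conv p la lb) := by
  refine ⟨by simp [mulL, ha.1, hb.1], fun x hx => ?_⟩
  obtain ⟨i, hi, rfl⟩ := List.getElem_of_mem hx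
  simp only [mulL, List.getElem_zipWith]
  exact WF.mul hc hp.P_ge hp.r_le (ha.2 _ (List.getElem_mem _)) (hb.2 _ (List.getElem_mem _))

theorem arr_mulL {conv : List ℕ → List ℕ → List ℕ} (hc : IsConv conv) {p : Par} (hp : p.Ok)
    {la lb : Ar} (ha : p.WF la) (hb : p.WF lb) {n : ℕ} (hn : n < p.N) :
    arr p.r p.M (mulL conv p la lb) n = arr p.r p.M la n * arr p.r p.M lb n := by
  have h1 : n < la.length := by rw [ha.1]; exact hn
  have h2 : n < lb.length := by rw [hb.1]; exact hn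
  have e : (mulL conv p la lb).getD n [] = recMul conv p.P (la.getD n []) (lb.getD n []) := by
    rw [List.getD_eq_getElem _ _ (by simp [mulL, h1, h2]), List.getD_eq_getElem _ _ h1,
      List.getD_eq_getElem _ _ h2]
    simp [mulL]
  rw [arr, e]
  exact ev_mul hc (cast_M_Rg p.r _) (yR_pow p.r _) hp.P_ge hp.r_le (WFA.getD ha hn)
    (WFA.getD hb hn)

theorem wf_scaleL {p : Par} (hp : p.Ok) {l : Ar} (h : p.WF l) : p.WF (scaleL p l) := by
  refine ⟨by simp [scaleL, h.1], fun x hx => ?_⟩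
  obtain ⟨y, hy, rfl⟩ := List.mem_map.1 hx
  exact WF.shift hp.P_ge (by omega) (h.2 y hy)

theorem arr_scaleL {p : Par} (hp : p.Ok) {l : Ar} (h : p.WF l) {n : ℕ} (hn : n < p.N) :
    arr p.r p.M (scaleL p l) n = 2 ^ (p.P - p.k * p.d) * arr p.r p.M l n := by
  have h1 : n < l.length := by rw [h.1]; exact hn
  have e : (scaleL p l).getD n [] = recShift p.P (p.P - p.k * p.d) (l.getD n []) := by
    rw [List.getD_eq_getElem _ _ (by simp [scaleL, h1]), List.getD_eq_getElem _ _ h1]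
    simp [scaleL]
  rw [arr, e]
  exact ev_shift (cast_M_Rg p.r _) hp.P_ge (by omega) (WFA.getD h hn)

/-! ### the transforms -/

/-- the specification of the layer program at fixed parameters -/
def LayOK (layer : Par × Un × Ar → Ar) (p : Par) : Prop :=
  ∀ (β : ℕ) (l : Ar), β < p.k → p.WF l → p.WF (layer (p, ⟨β⟩, l)) ∧ ∀ n < p.N,
    arr p.r p.M (layer (p, ⟨β⟩, l)) n = Hlay p.k p.d β (arr p.r p.M l) n

variable {layer : Par × Un × Ar → Ar} {p : Par}

theorem wf_fStep (hp : p.Ok) (hL : LayOK layer p) {l : Ar} (h : p.WF l) (ρ : ℕ) :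
    p.WF (fStep layer p l ρ) :=
  WFA.twist (hL _ l (by have := hp.k_pos; omega) h).1 _

theorem wf_iStep (hp : p.Ok) (hL : LayOK layer p) {l : Ar} (h : p.WF l) (ρ : ℕ) :
    p.WF (iStep layer p l ρ) :=
  (hL _ _ (by have := hp.k_pos; omega) (WFA.twist h _)).1

theorem arr_fStep (hp : p.Ok) (hL : LayOK layer p) {l : Ar} (h : p.WF l) (ρ : ℕ) :
    ∀ n < p.N, arr p.r p.M (fStep layer p l ρ) n = fwdRound p.w p.k p.d ρ (arr p.r p.M l) n := by
  intro n hn
  have h1 := hL (p.k - 1 - ρ) l (by have := hp.k_pos; omega) h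
  rw [fStep, arr_twist_twE h1.1 ρ hn, h1.2 n hn, fwdRound]

theorem arr_iStep (hp : p.Ok) (hL : LayOK layer p) {l : Ar} (h : p.WF l) (ρ : ℕ) :
    ∀ n < p.N, arr p.r p.M (iStep layer p l ρ) n = invRound p.w p.k p.d ρ (arr p.r p.M l) n := by
  intro n hn
  have hβ : p.k - 1 - ρ < p.k := by have := hp.k_pos; omega
  have h1 := hL (p.k - 1 - ρ) _ hβ (WFA.twist h (itwE p ρ))
  rw [iStep, h1.2 n hn, invRound]
  exact Hlay_congr hβ (fun x hx => arr_twist_itwE h ρ hx) n hn

theorem wf_foldl {step : Ar → ℕ → Ar} (hs : ∀ l ρ, p.WF l → p.WF (step l ρ)) (L : List ℕ)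
    {l : Ar} (h : p.WF l) : p.WF (L.foldl step l) := by
  induction L generalizing l with
  | nil => exact h
  | cons ρ L ih => exact ih (hs l ρ h)

theorem wf_fwdL (hp : p.Ok) (hL : LayOK layer p) {l : Ar} (h : p.WF l) : p.WF (fwdL layer p l) :=
  wf_foldl (fun _ ρ h => wf_fStep hp hL h ρ) _ h

theorem wf_invL (hp : p.Ok) (hL : LayOK layer p) {l : Ar} (h : p.WF l) : p.WF (invL layer p l) :=
  wf_foldl (fun _ ρ h => wf_iStep hp hL h ρ) _ h

theorem arr_fwdL (hp : p.Ok) (hL : LayOK layer p) {l : Ar} (h : p.WF l) :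
    ∀ n < p.N, arr p.r p.M (fwdL layer p l) n = fwd p.w p.k p.d (arr p.r p.M l) n := by
  have key : ∀ m, ∀ n < p.N, arr p.r p.M ((List.range m).foldl (fStep layer p) l) n =
      fwdN p.w p.k p.d m (arr p.r p.M l) n := by
    intro m
    induction m with
    | zero => intro n _; rfl
    | succ m ih =>
      intro n hn
      rw [List.range_succ, List.foldl_append, List.foldl_cons, List.foldl_nil, fwdN_succ,
        arr_fStep hp hL (wf_foldl (fun _ ρ h => wf_fStep hp hL h ρ) _ h) m n hn]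
      exact fwdRound_congr p.w hp.k_pos ih n hn
  exact key p.k

theorem arr_invL (hp : p.Ok) (hL : LayOK layer p) {l : Ar} (h : p.WF l) :
    ∀ n < p.N, arr p.r p.M (invL layer p l) n = inv p.w p.k p.d (arr p.r p.M l) n := by
  have key : ∀ m, ∀ l : Ar, p.WF l → ∀ n < p.N,
      arr p.r p.M ((List.range m).reverse.foldl (iStep layer p) l) n =
        invN p.w p.k p.d m (arr p.r p.M l) n := by
    intro m
    induction m with
    | zero => intro l _ n _; rfl
    | succ m ih =>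
      intro l h n hn
      rw [List.range_succ, List.reverse_append, List.reverse_singleton, List.singleton_append,
        List.foldl_cons, invN_succ, ih _ (wf_iStep hp hL h m) n hn]
      exact invN_congr p.w hp.k_pos m (arr_iStep hp hL h m) n hn
  exact key p.k l h

theorem wf_cvL {conv : List ℕ → List ℕ → List ℕ} (hc : IsConv conv) (hp : p.Ok)
    (hL : LayOK layer p) {la lb : Ar} (ha : p.WF la) (hb : p.WF lb) :
    p.WF (cvL layer conv p la lb) :=
  wf_scaleL hp (wf_invL hp hL (wf_mulL hc hp (wf_fwdL hp hL ha) (wf_fwdL hp hL hb)))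

/-- **Correctness of the algorithm.** -/
theorem arr_cvL {conv : List ℕ → List ℕ → List ℕ} (hc : IsConv conv) (hp : p.Ok)
    (hL : LayOK layer p) {la lb : Ar} (ha : p.WF la) (hb : p.WF lb) :
    ∀ n < p.N, arr p.r p.M (cvL layer conv p la lb) n =
      cconv p.k p.d (arr p.r p.M la) (arr p.r p.M lb) n := by
  intro n hn
  have hfa := wf_fwdL hp hL ha
  have hfb := wf_fwdL hp hL hb
  have hm := wf_mulL hc hp hfa hfb
  rw [cvL, arr_scaleL hp (wf_invL hp hL hm) hn, arr_invL hp hL hm n hn]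
  have e : inv p.w p.k p.d (arr p.r p.M (mulL conv p (fwdL layer p la) (fwdL layer p lb))) n =
      inv p.w p.k p.d (fun y => fwd p.w p.k p.d (arr p.r p.M la) y *
        fwd p.w p.k p.d (arr p.r p.M lb) y) n :=
    invN_congr p.w hp.k_pos p.k (fun x hx => by
      rw [arr_mulL hc hp hfa hfb hx, arr_fwdL hp hL ha x hx, arr_fwdL hp hL hb x hx]) n hn
  rw [e, inv_fwd_mul hp.k_pos (p.w_pow hp.k_pos hp.k_le) p.d _ _ n hn, ← mul_assoc, ← pow_add,
    Nat.sub_add_cancel hp.kd_le]
  have h2 : (2 : Rg p.r p.M) ^ p.P = 1 := two_pow_eq_one (cast_M_Rg p.r _)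
  rw [h2, one_mul]

/-- correctness against `FB.tower` -/
theorem coef_cvL {conv : List ℕ → List ℕ → List ℕ} (hc : IsConv conv) (hp : p.Ok)
    (hL : LayOK layer p) {la lb : Ar} (hla : p.WF la) (hlb : p.WF lb) (a b : FB.Arr)
    (ha : ∀ n < p.N, ∀ j < p.r, coef p.M la j n = ((a (n * p.r + j) : ℤ) : ZMod p.M))
    (hb : ∀ n < p.N, ∀ j < p.r, coef p.M lb j n = ((b (n * p.r + j) : ℤ) : ZMod p.M)) :
    ∀ n < p.N, ∀ j < p.r, coef p.M (cvL layer conv p la lb) j n =
      ((FB.tower p.t (p.d - 1) p.r (FB.nega p.r) a b (n * p.r + j) : ℤ) : ZMod p.M) :=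
  coef_eq_tower hp.d_pos p.r_pos hla hlb (wf_cvL hc hp hL hla hlb) ha hb
    (arr_cvL hc hp hL hla hlb)

end Crest.Agent.X326.M4
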